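import Vale.Agent.P247.H324.SP

/-! Change of frame: a variable complex structure in the target can be straightened. -/

open Set Metric Filter Topology Asymptotics
open scoped ContDiff

noncomputable section

namespace Vale.Agent.P247.H324

open Vale.Agent.P272.CT

variable {E : Type*} [NormedAddCommGroup E] [NormedSpace ℂ E]

/-- multiplication by `i` as a real linear map -/
def iL (E : Type*) [NormedAddCommGroup E] [NormedSpace ℂ E] : E →L[ℝ] E :=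
  (Complex.I • ContinuousLinearMap.id ℂ E).restrictScalars ℝ

@[simp] theorem iL_apply (v : E) : iL E v = Complex.I • v := rfl

/-- partial derivatives -/
abbrev px (u : ℂ → E) (z : ℂ) : E := fderiv ℝ u z 1
abbrev py (u : ℂ → E) (z : ℂ) : E := fderiv ℝ u z Complex.I

theorem fderiv_apply_eq (u : ℂ → E) (z w : ℂ) :
    fderiv ℝ u z w = w.re • px u z + w.im • py u z := by
  have : w = w.re • (1:ℂ) + w.im • Complex.I := by
    apply Complex.ext <;> simp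
  conv_lhs => rw [this]
  rw [map_add, map_smul, map_smul]

/-- the straightened function -/
def fr (𝒥 : ℂ → E →L[ℝ] E) (u : ℂ → E) (z : ℂ) : E := (1/2 : ℂ) • (u z - Complex.I • 𝒥 z (u z))

theorem fr_sub (𝒥 : ℂ → E →L[ℝ] E) (u : ℂ → E) {z : ℂ} (h : ‖𝒥 z - iL E‖ ≤ 1/2) :
    ‖fr 𝒥 u z - u z‖ ≤ 1/4 * ‖u z‖ := by
  have h1 : fr 𝒥 u z - u z = -((1/2 : ℂ) • (Complex.I • (𝒥 z - iL E) (u z))) := by
    simp only [fr, sub_apply, iL_apply, smul_sub, smul_smul]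
    have : (1/2 : ℂ) * (Complex.I * Complex.I) = -(1/2) := by
      rw [Complex.I_mul_I]; ring
    rw [this]
    module
  rw [h1, norm_neg, norm_smul, norm_smul, Complex.norm_I, one_mul,
    show ‖(1/2:ℂ)‖ = 1/2 by norm_num]
  have h2 := (𝒥 z - iL E).le_opNorm (u z)
  have h3 : ‖(𝒥 z - iL E)‖ * ‖u z‖ ≤ 1/2 * ‖u z‖ := by gcongr
  linarith

theorem norm_le_fr (𝒥 : ℂ → E →L[ℝ] E) (u : ℂ → E) {z : ℂ} (h : ‖𝒥 z - iL E‖ ≤ 1/2) :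
    ‖u z‖ ≤ 2 * ‖fr 𝒥 u z‖ := by
  have h1 := fr_sub 𝒥 u h
  have h2 : ‖u z‖ ≤ ‖fr 𝒥 u z‖ + ‖fr 𝒥 u z - u z‖ := by
    have := norm_sub_le (fr 𝒥 u z) (fr 𝒥 u z - u z)
    rwa [sub_sub_cancel] at this
  have := norm_nonneg (u z)
  linarith

theorem fr_norm_le (𝒥 : ℂ → E →L[ℝ] E) (u : ℂ → E) {z : ℂ} (h : ‖𝒥 z - iL E‖ ≤ 1/2) :
    ‖fr 𝒥 u z‖ ≤ 2 * ‖u z‖ := by
  have h1 := fr_sub 𝒥 u h
  have h2 : ‖fr 𝒥 u z‖ ≤ ‖u z‖ + ‖fr 𝒥 u z - u z‖ := by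
    have := norm_add_le (u z) (fr 𝒥 u z - u z)
    rwa [add_sub_cancel] at this
  have := norm_nonneg (u z)
  linarith

theorem contDiffOn_fr {U : Set ℂ} {𝒥 : ℂ → E →L[ℝ] E} {u : ℂ → E}
    (h𝒥 : ContDiffOn ℝ 1 𝒥 U) (hu : ContDiffOn ℝ 1 u U) : ContDiffOn ℝ 1 (fr 𝒥 u) U := by
  unfold fr
  exact (hu.sub ((h𝒥.clm_apply hu).const_smul Complex.I)).const_smul (1/2 : ℂ)

/-- The straightened function satisfies a Carleman inequality. -/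
theorem fr_dbarV {𝒥 : ℂ → E →L[ℝ] E} {u : ℂ → E} {z : ℂ} {C C1 : ℝ}
    (hu : DifferentiableAt ℝ u z) (h𝒥 : DifferentiableAt ℝ 𝒥 z)
    (hsq : ∀ v, 𝒥 z (𝒥 z v) = -v) (hn : ‖𝒥 z - iL E‖ ≤ 1/2)
    (hD : ‖fderiv ℝ 𝒥 z‖ ≤ C1) (he : ‖py u z - 𝒥 z (px u z)‖ ≤ C * ‖u z‖) :
    ‖dbarV (fr 𝒥 u) z‖ ≤ 4 * (C + C1) * ‖fr 𝒥 u z‖ := by
  have hd : ∀ w : ℂ, fderiv ℝ (fr 𝒥 u) z w =
      (1/2 : ℂ) • (fderiv ℝ u z w - Complex.I • (𝒥 z (fderiv ℝ u z w) + (fderiv ℝ 𝒥 z w) (u z))) := by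
    intro w
    have h1 : HasFDerivAt (fun z => 𝒥 z (u z)) _ z := h𝒥.hasFDerivAt.clm_apply hu.hasFDerivAt
    have h2 : HasFDerivAt (fr 𝒥 u) _ z :=
      (hu.hasFDerivAt.sub (h1.const_smul Complex.I)).const_smul (1/2 : ℂ)
    rw [h2.fderiv]
    simp
  have key : dbarV (fr 𝒥 u) z = (1/2 : ℂ) • ((1/2 : ℂ) • (
      (Complex.I • (py u z - 𝒥 z (px u z)) + 𝒥 z (py u z - 𝒥 z (px u z)))
      - (Complex.I • (fderiv ℝ 𝒥 z 1) (u z) - (fderiv ℝ 𝒥 z Complex.I) (u z)))) := by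
    have h3 : 𝒥 z (𝒥 z (px u z)) = - px u z := hsq _
    simp only [dbarV, hd, map_sub, h3]
    have hI : ∀ v : E, Complex.I • (Complex.I • v) = -v := by
      intro v; rw [smul_smul, Complex.I_mul_I]; simp
    simp only [smul_sub, smul_add, smul_comm Complex.I (1/2:ℂ), hI, px, py]
    module
  have hJn : ‖𝒥 z‖ ≤ 2 := by
    have h4 : ‖iL E‖ ≤ 1 := ContinuousLinearMap.opNorm_le_bound _ zero_le_one (fun v => by
      simp [norm_smul])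
    have h5 : ‖𝒥 z‖ ≤ ‖𝒥 z - iL E‖ + ‖iL E‖ := by
      have := norm_add_le (𝒥 z - iL E) (iL E)
      rwa [sub_add_cancel] at this
    linarith
  have b1 : ‖Complex.I • (py u z - 𝒥 z (px u z))‖ ≤ C * ‖u z‖ := by
    rw [norm_smul]; simpa using he
  have b2 : ‖𝒥 z (py u z - 𝒥 z (px u z))‖ ≤ 2 * (C * ‖u z‖) :=
    ((𝒥 z).le_opNorm _).trans (by gcongr)
  have b3 : ∀ w : ℂ, ‖w‖ ≤ 1 → ‖(fderiv ℝ 𝒥 z w) (u z)‖ ≤ C1 * ‖u z‖ := by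
    intro w hw
    have h6 := (fderiv ℝ 𝒥 z w).le_opNorm (u z)
    have h7 := (fderiv ℝ 𝒥 z).le_opNorm w
    have h8 : ‖fderiv ℝ 𝒥 z w‖ ≤ C1 := by
      refine h7.trans ?_
      calc ‖fderiv ℝ 𝒥 z‖ * ‖w‖ ≤ C1 * 1 := by
            gcongr
            exact (norm_nonneg (fderiv ℝ 𝒥 z)).trans hD
        _ = C1 := mul_one _
    exact h6.trans (by gcongr)
  have b4 : ‖Complex.I • (fderiv ℝ 𝒥 z 1) (u z)‖ ≤ C1 * ‖u z‖ := by
    rw [norm_smul]; simpa using b3 1 (by simp)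
  have b5 := b3 Complex.I (by simp)
  have h9 : ‖(Complex.I • (py u z - 𝒥 z (px u z)) + 𝒥 z (py u z - 𝒥 z (px u z)))
      - (Complex.I • (fderiv ℝ 𝒥 z 1) (u z) - (fderiv ℝ 𝒥 z Complex.I) (u z))‖ ≤
      (C * ‖u z‖ + 2 * (C * ‖u z‖)) + (C1 * ‖u z‖ + C1 * ‖u z‖) := by
    refine (norm_sub_le _ _).trans (add_le_add ?_ ?_)
    · exact (norm_add_le _ _).trans (add_le_add b1 b2)
    · exact (norm_sub_le _ _).trans (add_le_add b4 b5)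
  have hu2 := norm_le_fr 𝒥 u hn
  have hC : 0 ≤ C * ‖u z‖ := (norm_nonneg _).trans he
  have hC1 : 0 ≤ C1 := (norm_nonneg (fderiv ℝ 𝒥 z)).trans hD
  rw [key, norm_smul, norm_smul, show ‖(1/2:ℂ)‖ = 1/2 by norm_num]
  rcases eq_or_ne (u z) 0 with h0 | h0
  · have : (Complex.I • (py u z - 𝒥 z (px u z)) + 𝒥 z (py u z - 𝒥 z (px u z)))
      - (Complex.I • (fderiv ℝ 𝒥 z 1) (u z) - (fderiv ℝ 𝒥 z Complex.I) (u z)) = 0 := by
      rw [← norm_le_zero_iff]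
      simpa [h0] using h9
    rw [this]
    simp [fr, h0]
  · have hCn : 0 ≤ C := by
      by_contra hc
      have : C * ‖u z‖ < 0 := mul_neg_of_neg_of_pos (not_le.1 hc) (norm_pos_iff.2 h0)
      linarith
    have h10 : (C + C1) * ‖u z‖ ≤ (C + C1) * (2 * ‖fr 𝒥 u z‖) := by gcongr
    have h11 : 0 ≤ (C + C1) * ‖fr 𝒥 u z‖ := by positivity
    have h12 := mul_nonneg hC1 (norm_nonneg (u z))
    have h13 : (1/2 : ℝ) * (1/2 * ‖(Complex.I • (py u z - 𝒥 z (px u z)) + 𝒥 z (py u z - 𝒥 z (px u z)))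
      - (Complex.I • (fderiv ℝ 𝒥 z 1) (u z) - (fderiv ℝ 𝒥 z Complex.I) (u z))‖) ≤
      (1/2 : ℝ) * (1/2 * ((C * ‖u z‖ + 2 * (C * ‖u z‖)) + (C1 * ‖u z‖ + C1 * ‖u z‖))) := by
      gcongr
    refine h13.trans ?_
    linarith

/-- Straightening plus the similarity principle. -/
theorem sp_frame [CompleteSpace E] {𝒥 : ℂ → E →L[ℝ] E} {u : ℂ → E} {R C C1 A : ℝ} (hR : 0 < R)
    (hu : ContDiffOn ℝ 1 u (ball 0 R \ {0})) (h𝒥 : ContDiffOn ℝ 1 𝒥 (ball 0 R \ {0}))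
    (hsq : ∀ z ∈ ball (0:ℂ) R \ {0}, ∀ v, 𝒥 z (𝒥 z v) = -v)
    (hlim : Tendsto 𝒥 (𝓝[≠] 0) (𝓝 (iL E)))
    (hD : ∀ z ∈ ball (0:ℂ) R \ {0}, ‖fderiv ℝ 𝒥 z‖ ≤ C1)
    (hb : ∀ z ∈ ball (0:ℂ) R \ {0}, ‖u z‖ ≤ A)
    (he : ∀ z ∈ ball (0:ℂ) R \ {0}, ‖py u z - 𝒥 z (px u z)‖ ≤ C * ‖u z‖) :
    (∃ r > 0, ∀ z ∈ ball (0:ℂ) r \ {0}, u z = 0) ∨
    ∃ (m : ℕ) (a : E), a ≠ 0 ∧ Tendsto (fun z : ℂ => (z^m)⁻¹ • u z) (𝓝[≠] 0) (𝓝 a) := by
  obtain ⟨r0, hr0, hr0'⟩ : ∃ r0 > 0, ∀ z ∈ ball (0:ℂ) r0 \ {0}, ‖𝒥 z - iL E‖ ≤ 1/2 := by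
    have h1 : ∀ᶠ z in 𝓝[≠] (0:ℂ), ‖𝒥 z - iL E‖ < 1/2 := by
      have h2 := (hlim.sub_const (iL E)).norm
      rw [sub_self, norm_zero] at h2
      exact h2.eventually (gt_mem_nhds (by norm_num))
    rw [eventually_nhdsWithin_iff, Metric.eventually_nhds_iff_ball] at h1
    obtain ⟨r0, hr0, h3⟩ := h1
    exact ⟨r0, hr0, fun z hz => (h3 z hz.1 hz.2).le⟩
  set r1 := min R r0 with hr1
  have hr1p : 0 < r1 := lt_min hR hr0
  have s1 : ball (0:ℂ) r1 \ {0} ⊆ ball (0:ℂ) R \ {0} :=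
    sdiff_subset_sdiff_left (ball_subset_ball (min_le_left _ _))
  have s2 : ball (0:ℂ) r1 \ {0} ⊆ ball (0:ℂ) r0 \ {0} :=
    sdiff_subset_sdiff_left (ball_subset_ball (min_le_right _ _))
  have hop : IsOpen (ball (0:ℂ) r1 \ {0}) := isOpen_ball.sdiff isClosed_singleton
  have hv := contDiffOn_fr (h𝒥.mono s1) (hu.mono s1)
  have hdu : ∀ z ∈ ball (0:ℂ) r1 \ {0}, DifferentiableAt ℝ u z := fun z hz =>
    ((hu.mono s1).differentiableOn (by simp)).differentiableAt (hop.mem_nhds hz)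
  have hdJ : ∀ z ∈ ball (0:ℂ) r1 \ {0}, DifferentiableAt ℝ 𝒥 z := fun z hz =>
    ((h𝒥.mono s1).differentiableOn (by simp)).differentiableAt (hop.mem_nhds hz)
  have hfr := sp_local (u := fr 𝒥 u) (C := 4 * (C + C1)) (A := 2 * A) hr1p hv
    (fun z hz => (fr_norm_le 𝒥 u (hr0' z (s2 hz))).trans (by
      have := hb z (s1 hz); linarith))
    (fun z hz => fr_dbarV (hdu z hz) (hdJ z hz) (hsq z (s1 hz)) (hr0' z (s2 hz))
      (hD z (s1 hz)) (he z (s1 hz)))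
  rcases hfr with ⟨r, hr, h⟩ | ⟨m, a, ha, K, r, hK, hr, h⟩
  · left
    refine ⟨min r r1, lt_min hr hr1p, fun z hz => ?_⟩
    have hz1 : z ∈ ball (0:ℂ) r1 \ {0} := ⟨ball_subset_ball (min_le_right _ _) hz.1, hz.2⟩
    have hz2 : z ∈ ball (0:ℂ) r \ {0} := ⟨ball_subset_ball (min_le_left _ _) hz.1, hz.2⟩
    have h4 := norm_le_fr 𝒥 u (hr0' z (s2 hz1))
    rw [h z hz2, norm_zero, mul_zero] at h4
    exact norm_le_zero_iff.1 h4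
  · right
    refine ⟨m, a, ha, ?_⟩
    have t1 : Tendsto (fun z : ℂ => (z^m)⁻¹ • fr 𝒥 u z) (𝓝[≠] 0) (𝓝 a) := by
      rw [tendsto_iff_norm_sub_tendsto_zero]
      have t2 : Tendsto (fun z : ℂ => K * ‖z‖ ^ (1/2 : ℝ)) (𝓝[≠] 0) (𝓝 0) := by
        have t3 : Tendsto (fun z : ℂ => K * ‖z‖ ^ (1/2 : ℝ)) (𝓝 0) (𝓝 (K * ‖(0:ℂ)‖ ^ (1/2 : ℝ))) := by
          apply Tendsto.const_mul
          exact (continuous_norm.tendsto _).rpow_const (Or.inr (by norm_num))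
        rw [norm_zero, Real.zero_rpow (by norm_num), mul_zero] at t3
        exact t3.mono_left nhdsWithin_le_nhds
      refine squeeze_zero' (Eventually.of_forall fun _ => norm_nonneg _) ?_ t2
      rw [eventually_nhdsWithin_iff]
      filter_upwards [ball_mem_nhds (0:ℂ) hr] with z hz hz0
      exact h z ⟨hz, hz0⟩
    -- the difference
    have t4 : Tendsto (fun z : ℂ => ‖𝒥 z - iL E‖) (𝓝[≠] 0) (𝓝 0) := by
      have h2 := (hlim.sub_const (iL E)).norm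
      rwa [sub_self, norm_zero] at h2
    have t5 : Tendsto (fun z : ℂ => (z^m)⁻¹ • u z - (z^m)⁻¹ • fr 𝒥 u z) (𝓝[≠] 0) (𝓝 0) := by
      rw [tendsto_zero_iff_norm_tendsto_zero]
      have t6 : Tendsto (fun z : ℂ => ‖𝒥 z - iL E‖ * ‖(z^m)⁻¹ • fr 𝒥 u z‖) (𝓝[≠] 0)
          (𝓝 (0 * ‖a‖)) := Tendsto.mul (f := fun z : ℂ => ‖𝒥 z - iL E‖)
            (g := fun z : ℂ => ‖(z^m)⁻¹ • fr 𝒥 u z‖) t4 t1.norm
      rw [zero_mul] at t6
      refine squeeze_zero' (Eventually.of_forall fun _ => norm_nonneg _) ?_ t6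
      rw [eventually_nhdsWithin_iff]
      filter_upwards [ball_mem_nhds (0:ℂ) hr0] with z hz hz0
      have h5 := hr0' z ⟨hz, hz0⟩
      have h6 : fr 𝒥 u z - u z = -((1/2 : ℂ) • (Complex.I • (𝒥 z - iL E) (u z))) := by
        simp only [fr, sub_apply, iL_apply, smul_sub, smul_smul]
        have : (1/2 : ℂ) * (Complex.I * Complex.I) = -(1/2) := by
          rw [Complex.I_mul_I]; ring
        rw [this]
        module
      have h7 : ‖u z - fr 𝒥 u z‖ ≤ ‖𝒥 z - iL E‖ * ‖fr 𝒥 u z‖ := by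
        rw [← norm_neg, neg_sub, h6, norm_neg, norm_smul, norm_smul]
        have h8 := (𝒥 z - iL E).le_opNorm (u z)
        have h9 := norm_le_fr 𝒥 u h5
        have h10 : ‖𝒥 z - iL E‖ * ‖u z‖ ≤ ‖𝒥 z - iL E‖ * (2 * ‖fr 𝒥 u z‖) := by gcongr
        rw [Complex.norm_I, one_mul, show ‖(1/2:ℂ)‖ = 1/2 by norm_num]
        linarith
      rw [← smul_sub, norm_smul, norm_smul]
      calc ‖(z^m)⁻¹‖ * ‖u z - fr 𝒥 u z‖ ≤ ‖(z^m)⁻¹‖ * (‖𝒥 z - iL E‖ * ‖fr 𝒥 u z‖) := by gcongr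
        _ = _ := by ring
    have t7 := t5.add t1
    simpa using t7

end Vale.Agent.P247.H324
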