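import Vale.Agent.P247.H324.JLoc

/-! Immersed almost complex curves as graphs, and the difference of an almost complex
curve and such a graph. -/

open Set Metric Filter Topology Asymptotics
open scoped ContDiff

noncomputable section

namespace Vale.Agent.P247.H324

open Vale.Agent.P272.CT

/-- `F` is almost complex at `z`. -/
def JHol (J : AC) (F : ℂ → C2) (z : ℂ) : Prop := py F z = J (F z) (px F z)

theorem JHol.mul_I {J : AC} {F : ℂ → C2} {z : ℂ} (h : JHol J F z)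
    (hsq : ∀ x v, J x (J x v) = -v) (w : ℂ) :
    J (F z) (fderiv ℝ F z w) = fderiv ℝ F z (Complex.I * w) := by
  rw [fderiv_apply_eq F z w, fderiv_apply_eq F z (Complex.I * w)]
  unfold JHol at h
  rw [h]
  simp only [map_add, map_smul, hsq, Complex.mul_re, Complex.mul_im, Complex.I_re, Complex.I_im]
  simp
  abel

/-- a graph sheet of an almost complex curve over a disc -/
structure Sheet (J : AC) (G : ℂ → ℂ) (x1 : ℂ) (ρ : ℝ) : Prop where
  pos : 0 < ρ
  smooth : ContDiffOn ℝ 2 G (ball x1 ρ)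
  inv : ∀ x ∈ ball x1 ρ, ∀ y : ℂ, (J (x, G x) (y, fderiv ℝ G x y)).2 =
    fderiv ℝ G x (J (x, G x) (y, fderiv ℝ G x y)).1

theorem Sheet.mono {J : AC} {G : ℂ → ℂ} {x1 x2 : ℂ} {ρ ρ' : ℝ} (h : Sheet J G x1 ρ)
    (hρ' : 0 < ρ') (hs : ball x2 ρ' ⊆ ball x1 ρ) : Sheet J G x2 ρ' :=
  ⟨hρ', h.smooth.mono hs, fun x hx => h.inv x (hs hx)⟩

/-- An almost complex curve whose first component is a local diffeomorphism is a graph. -/
theorem sheet_of_immersed {J : AC} (hsq : ∀ x v, J x (J x v) = -v)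
    {F : ℂ → C2} {z0 : ℂ} {R : ℝ} (hR : 0 < R) (hF : ContDiffOn ℝ 2 F (ball z0 R))
    (hJF : ∀ z ∈ ball z0 R, JHol J F z)
    (himm : ∀ w : ℂ, (fderiv ℝ F z0 w).1 = 0 → w = 0) :
    ∃ (G : ℂ → ℂ) (ρ : ℝ) (φ : ℂ → ℂ), Sheet J G (F z0).1 ρ ∧ G (F z0).1 = (F z0).2 ∧
      φ (F z0).1 = z0 ∧
      ContDiffOn ℝ 2 φ (ball (F z0).1 ρ) ∧
      (∀ x ∈ ball (F z0).1 ρ, φ x ∈ ball z0 R ∧ F (φ x) = (x, G x)) ∧
      (∃ η > 0, η ≤ R ∧ ∀ z ∈ ball z0 η, (F z).1 ∈ ball (F z0).1 ρ ∧ φ (F z).1 = z) := by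
  set f : ℂ → ℂ := fun z => (F z).1 with hf
  have cF : ContDiffAt ℝ 2 F z0 := hF.contDiffAt (ball_mem_nhds _ hR)
  have cf : ContDiffAt ℝ 2 f z0 := contDiffAt_fst.comp z0 cF
  have dF : DifferentiableAt ℝ F z0 := cF.differentiableAt (by simp)
  have df : HasFDerivAt f ((ContinuousLinearMap.fst ℝ ℂ ℂ) ∘L (fderiv ℝ F z0)) z0 :=
    dF.hasFDerivAt.fst
  have hinj : Function.Injective ((ContinuousLinearMap.fst ℝ ℂ ℂ) ∘L (fderiv ℝ F z0)) := by
    rw [injective_iff_map_eq_zero]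
    intro w hw
    exact himm w (by simpa using hw)
  have hbij := LinearMap.injective_iff_surjective.1
    (show Function.Injective ((ContinuousLinearMap.fst ℝ ℂ ℂ) ∘L (fderiv ℝ F z0)).toLinearMap from hinj)
  let e : ℂ ≃L[ℝ] ℂ := (LinearEquiv.ofBijective
    ((ContinuousLinearMap.fst ℝ ℂ ℂ) ∘L (fderiv ℝ F z0)).toLinearMap ⟨hinj, hbij⟩).toContinuousLinearEquiv
  have df' : HasFDerivAt f (e : ℂ →L[ℝ] ℂ) z0 := df.congr_fderiv (by ext w; rfl)
  let P : OpenPartialHomeomorph ℂ ℂ := cf.toOpenPartialHomeomorph f df' (by simp)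
  have hPf : (P : ℂ → ℂ) = f := ContDiffAt.toOpenPartialHomeomorph_coe cf df' (by simp)
  have hz0 : z0 ∈ P.source := cf.mem_toOpenPartialHomeomorph_source df' (by simp)
  have hfz0 : f z0 ∈ P.target := by
    have := P.map_source hz0
    rwa [hPf] at this
  have hφ0 : P.symm (f z0) = z0 := by
    have := P.left_inv hz0
    rwa [hPf] at this
  have cφ : ContDiffAt ℝ 2 P.symm (f z0) := cf.to_localInverse df' (by simp)
  -- neighbourhood where everything holds
  have hN1 : ∀ᶠ x in 𝓝 (f z0), ContDiffAt ℝ 2 P.symm x := cφ.eventually (by simp)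
  have hN2 : ∀ᶠ x in 𝓝 (f z0), P.symm x ∈ ball z0 R := by
    have c := cφ.continuousAt
    unfold ContinuousAt at c
    rw [hφ0] at c
    exact c.eventually (ball_mem_nhds _ hR)
  have hN3 : ∀ᶠ x in 𝓝 (f z0), x ∈ P.target := P.open_target.mem_nhds hfz0
  obtain ⟨ρ, hρ, hN⟩ := Metric.eventually_nhds_iff_ball.1 ((hN1.and hN2).and hN3)
  set φ : ℂ → ℂ := fun x => P.symm x with hφ
  set G : ℂ → ℂ := fun x => (F (φ x)).2 with hG
  have hfφ : ∀ x ∈ ball (f z0) ρ, f (φ x) = x := by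
    intro x hx
    have := P.right_inv (hN x hx).2
    rwa [hPf] at this
  have hFφ : ∀ x ∈ ball (f z0) ρ, F (φ x) = (x, G x) := fun x hx =>
    Prod.ext (hfφ x hx) rfl
  have cFφ : ContDiffOn ℝ 2 (fun x => F (φ x)) (ball (f z0) ρ) := by
    intro x hx
    have h1 := (hN x hx).1
    have h2 : ContDiffAt ℝ 2 F (φ x) := hF.contDiffAt (isOpen_ball.mem_nhds h1.2)
    exact (h2.comp x h1.1).contDiffWithinAt
  have cG : ContDiffOn ℝ 2 G (ball (f z0) ρ) := contDiff_snd.comp_contDiffOn cFφ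
  refine ⟨G, ρ, φ, ⟨hρ, cG, ?_⟩, ?_, hφ0, fun x hx => (hN x hx).1.1.contDiffWithinAt,
    fun x hx => ⟨(hN x hx).1.2, hFφ x hx⟩, ?_⟩
  · -- invariance
    intro x hx y
    have h1 := (hN x hx).1
    have dφ : DifferentiableAt ℝ φ x := h1.1.differentiableAt (by simp)
    have dFx : DifferentiableAt ℝ F (φ x) :=
      (hF.contDiffAt (isOpen_ball.mem_nhds h1.2)).differentiableAt (by simp)
    have dG : DifferentiableAt ℝ G x :=
      (cG.differentiableOn (by simp)).differentiableAt (isOpen_ball.mem_nhds hx)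
    -- derivative of F ∘ φ
    have e1 : HasFDerivAt (fun x => F (φ x)) ((fderiv ℝ F (φ x)) ∘L (fderiv ℝ φ x)) x :=
      dFx.hasFDerivAt.comp x dφ.hasFDerivAt
    have e2 : HasFDerivAt (fun x => (x, G x)) ((ContinuousLinearMap.id ℝ ℂ).prod (fderiv ℝ G x)) x :=
      (hasFDerivAt_id x).prodMk dG.hasFDerivAt
    have e3 : (fun x => F (φ x)) =ᶠ[𝓝 x] fun x => (x, G x) := by
      filter_upwards [isOpen_ball.mem_nhds hx] with w hw using hFφ w hw
    have e4 := (e1.congr_of_eventuallyEq e3.symm).unique e2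
    have e5 : ∀ y, fderiv ℝ F (φ x) (fderiv ℝ φ x y) = (y, fderiv ℝ G x y) := fun y => by
      have := congrArg (fun L : ℂ →L[ℝ] C2 => L y) e4
      simpa using this
    -- surjectivity of D φ
    have hsurj : Function.Surjective (fderiv ℝ φ x) := by
      have hi : Function.Injective (fderiv ℝ φ x) := by
        rw [injective_iff_map_eq_zero]
        intro y hy
        have := e5 y
        rw [hy, map_zero] at this
        exact (Prod.ext_iff.1 this).1.symm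
      exact LinearMap.injective_iff_surjective.1
        (show Function.Injective (fderiv ℝ φ x).toLinearMap from hi)
    obtain ⟨y', hy'⟩ := hsurj (Complex.I * fderiv ℝ φ x y)
    have e6 : J (x, G x) (y, fderiv ℝ G x y) = (y', fderiv ℝ G x y') := by
      rw [← e5 y, ← e5 y', hy', ← hFφ x hx]
      exact (hJF (φ x) h1.2).mul_I hsq _
    rw [e6]
  · simp only [hG]
    show (F (P.symm (f z0))).2 = (F z0).2
    rw [hφ0]
  · have c1 : ContinuousAt f z0 := cf.continuousAt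
    have h1 : ∀ᶠ z in 𝓝 z0, f z ∈ ball (f z0) ρ := c1.eventually (ball_mem_nhds _ hρ)
    have h2 : ∀ᶠ z in 𝓝 z0, z ∈ P.source := P.open_source.mem_nhds hz0
    obtain ⟨η, hη, h3⟩ := Metric.eventually_nhds_iff_ball.1 (h1.and h2)
    refine ⟨min η R, lt_min hη hR, min_le_right _ _, fun z hz => ?_⟩
    have h4 := h3 z (ball_subset_ball (min_le_left _ _) hz)
    refine ⟨h4.1, ?_⟩
    have := P.left_inv h4.2
    rwa [hPf] at this

/-- Difference of an almost complex curve and a graph sheet. -/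
theorem sheet_diff {J : AC} (hJ : ContDiff ℝ 1 J) (hsq : ∀ x v, J x (J x v) = -v)
    {F : ℂ → C2} {R ρ : ℝ} (hR : 0 < R) (hF : ContDiffOn ℝ 2 F (ball 0 R))
    (hJF : ∀ z ∈ ball (0:ℂ) R, JHol J F z) {G : ℂ → ℂ} (hG : Sheet J G (F 0).1 ρ)
    (hG0 : G (F 0).1 = (F 0).2) (h0 : J (F 0) = iL C2) :
    (∃ r > 0, ∀ z ∈ ball (0:ℂ) r, (F z).1 ∈ ball (F 0).1 ρ ∧ (F z).2 = G (F z).1) ∨
    ∃ (m : ℕ) (a : ℂ), 1 ≤ m ∧ a ≠ 0 ∧
      Tendsto (fun z : ℂ => (z^m)⁻¹ * (G (F z).1 - (F z).2)) (𝓝[≠] 0) (𝓝 a) := by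
  have hρ := hG.pos
  -- shrink
  have cF0 : ContinuousAt F 0 := hF.continuousOn.continuousAt (ball_mem_nhds _ hR)
  obtain ⟨r1, hr1, h1⟩ : ∃ r1 > 0, ∀ z ∈ ball (0:ℂ) r1, (F z).1 ∈ ball (F 0).1 (ρ/2) := by
    have c2 : ContinuousAt (fun z => (F z).1) 0 := cF0.fst
    have := c2.eventually (ball_mem_nhds (F 0).1 (half_pos hρ))
    exact Metric.eventually_nhds_iff_ball.1 this
  set R' := min (R/2) r1 with hR'
  have hR'p : 0 < R' := lt_min (half_pos hR) hr1
  have s1 : closedBall (0:ℂ) R' ⊆ ball 0 R :=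
    closedBall_subset_ball ((min_le_left _ _).trans_lt (half_lt_self hR))
  have s2 : ball (0:ℂ) R' \ {0} ⊆ ball (0:ℂ) R := fun z hz => s1 (ball_subset_closedBall hz.1)
  have s3 : ∀ z ∈ ball (0:ℂ) R', (F z).1 ∈ ball (F 0).1 (ρ/2) := fun z hz =>
    h1 z (ball_subset_ball (min_le_right _ _) hz)
  have s4 : closedBall (F 0).1 (ρ/2) ⊆ ball (F 0).1 ρ := closedBall_subset_ball (half_lt_self hρ)
  have s5 : ∀ z ∈ ball (0:ℂ) R', (F z).1 ∈ ball (F 0).1 ρ := fun z hz =>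
    s4 (ball_subset_closedBall (s3 z hz))
  have hop : IsOpen (ball (0:ℂ) R' \ {0}) := isOpen_ball.sdiff isClosed_singleton
  set H : ℂ → C2 := fun z => ((F z).1, G (F z).1) with hH
  set s : ℂ → ℂ →L[ℝ] ℂ := fun z => fderiv ℝ G (F z).1 with hs
  -- regularity
  have cf : ContDiffOn ℝ 2 (fun z => (F z).1) (ball (0:ℂ) R') :=
    contDiff_fst.comp_contDiffOn (hF.mono (fun z hz => s1 (ball_subset_closedBall hz)))
  have cDG : ContDiffOn ℝ 1 (fderiv ℝ G) (ball (F 0).1 ρ) :=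
    hG.smooth.fderiv_of_isOpen isOpen_ball (by norm_num)
  have cs : ContDiffOn ℝ 1 s (ball (0:ℂ) R') := cDG.comp (cf.of_le (by norm_num)) s5
  have cGf : ContDiffOn ℝ 1 (fun z => G (F z).1) (ball (0:ℂ) R') :=
    (hG.smooth.of_le (by norm_num)).comp (cf.of_le (by norm_num)) s5
  have cH : ContDiffOn ℝ 1 H (ball (0:ℂ) R') := (cf.of_le (by norm_num)).prodMk cGf
  have cG0 : ContinuousAt G (F 0).1 :=
    hG.smooth.continuousOn.continuousAt (ball_mem_nhds _ hρ)
  have cH0 : ContinuousAt H 0 := cH.continuousOn.continuousAt (ball_mem_nhds _ hR'p)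
  have hH0 : H 0 = F 0 := Prod.ext rfl hG0
  -- bounds
  set R2 := R' / 2 with hR2
  have hR2p : 0 < R2 := half_pos hR'p
  have t1 : closedBall (0:ℂ) R2 ⊆ ball 0 R' := closedBall_subset_ball (half_lt_self hR'p)
  have t2 : ball (0:ℂ) R2 \ {0} ⊆ ball (0:ℂ) R' := fun z hz => t1 (ball_subset_closedBall hz.1)
  have cdF : ContinuousOn (px F) (ball (0:ℂ) R) := (contDiffOn_px isOpen_ball hF).continuousOn
  obtain ⟨M1, hM1⟩ : ∃ M1, ∀ z ∈ closedBall (0:ℂ) R2, ‖px F z‖ ≤ M1 :=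
    (isCompact_closedBall (0:ℂ) R2).exists_bound_of_continuousOn
      (cdF.mono (fun z hz => s1 (ball_subset_closedBall (t1 hz))))
  have cdH := cH.continuousOn_fderiv_of_isOpen isOpen_ball (by simp)
  obtain ⟨M2, hM2⟩ : ∃ M2, ∀ z ∈ closedBall (0:ℂ) R2, ‖fderiv ℝ H z‖ ≤ M2 :=
    (isCompact_closedBall (0:ℂ) R2).exists_bound_of_continuousOn (cdH.mono t1)
  obtain ⟨M3, hM3⟩ : ∃ M3, ∀ z ∈ closedBall (0:ℂ) R2, ‖s z‖ ≤ M3 :=
    (isCompact_closedBall (0:ℂ) R2).exists_bound_of_continuousOn (cs.continuousOn.mono t1)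
  have cds := cs.continuousOn_fderiv_of_isOpen isOpen_ball (by simp)
  obtain ⟨M4, hM4⟩ : ∃ M4, ∀ z ∈ closedBall (0:ℂ) R2, ‖fderiv ℝ s z‖ ≤ M4 :=
    (isCompact_closedBall (0:ℂ) R2).exists_bound_of_continuousOn (cds.mono t1)
  have cJH : ContinuousOn (fun z => J (H z)) (ball (0:ℂ) R') :=
    hJ.continuous.comp_continuousOn cH.continuousOn
  obtain ⟨M5, hM5⟩ : ∃ M5, ∀ z ∈ closedBall (0:ℂ) R2, ‖J (H z)‖ ≤ M5 :=
    (isCompact_closedBall (0:ℂ) R2).exists_bound_of_continuousOn (cJH.mono t1)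
  have z0m : (0:ℂ) ∈ closedBall (0:ℂ) R2 := mem_closedBall_self hR2p.le
  have p1 : 0 ≤ M1 := (norm_nonneg _).trans (hM1 0 z0m)
  have p2 : 0 ≤ M2 := (norm_nonneg (fderiv ℝ H 0)).trans (hM2 0 z0m)
  have p3 : 0 ≤ M3 := (norm_nonneg (s 0)).trans (hM3 0 z0m)
  have p4 : 0 ≤ M4 := (norm_nonneg (fderiv ℝ s 0)).trans (hM4 0 z0m)
  have p5 : 0 ≤ M5 := (norm_nonneg (J (H 0))).trans (hM5 0 z0m)
  set M := M1 + M2 + M3 + M4 * M5 with hM
  have p6 : 0 ≤ M4 * M5 := mul_nonneg p4 p5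
  have key := sheet_sp (J := J) hJ hsq (F := F) (H := H) (s := s) (R := R2) (M := M) (x0 := F 0)
    hR2p h0 ((hF.of_le (by norm_num)).mono (fun z hz => s1 (ball_subset_closedBall (t2 hz))))
    (cH.mono t2) (cs.mono t2) (cF0.tendsto.mono_left nhdsWithin_le_nhds)
    (by
      have := cH0.tendsto
      rw [hH0] at this
      exact this.mono_left nhdsWithin_le_nhds)
    (fun z hz => hJF z (s1 (ball_subset_closedBall (t2 hz))))
    (fun z hz => rfl)
    (fun z hz w => by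
      have d1 : DifferentiableAt ℝ (fun z => (F z).1) z :=
        (cf.differentiableOn (by simp)).differentiableAt (isOpen_ball.mem_nhds (t2 hz))
      have d2 : DifferentiableAt ℝ G (F z).1 :=
        (hG.smooth.differentiableOn (by simp)).differentiableAt (isOpen_ball.mem_nhds (s5 z (t2 hz)))
      have d3 : HasFDerivAt (fun z => G (F z).1) _ z := d2.hasFDerivAt.comp z d1.hasFDerivAt
      have d4 : HasFDerivAt H _ z := d1.hasFDerivAt.prodMk d3
      rw [d4.fderiv]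
      simp [hs])
    (fun z hz x => hG.inv _ (s5 z (t2 hz)) x)
    (fun z hz => (hM1 z (ball_subset_closedBall hz.1)).trans (by linarith))
    (fun z hz => (hM2 z (ball_subset_closedBall hz.1)).trans (by linarith))
    (fun z hz => (hM3 z (ball_subset_closedBall hz.1)).trans (by linarith))
    (fun z hz => by
      have q1 := hM4 z (ball_subset_closedBall hz.1)
      have q2 := (norm_pJ (J (H z))).trans (hM5 z (ball_subset_closedBall hz.1))
      calc ‖fderiv ℝ s z‖ * ‖pJ (J (H z))‖ ≤ M4 * M5 := by gcongr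
        _ ≤ M := by linarith)
  rcases key with ⟨r, hr, h⟩ | ⟨m, a, ha, hl⟩
  · left
    refine ⟨min r R', lt_min hr hR'p, fun z hz => ?_⟩
    have hzR : z ∈ ball (0:ℂ) R' := ball_subset_ball (min_le_right _ _) hz
    refine ⟨s5 z hzR, ?_⟩
    by_cases hz0 : z = 0
    · rw [hz0]; exact hG0.symm
    · exact (h z ⟨ball_subset_ball (min_le_left _ _) hz, hz0⟩).symm
  · right
    refine ⟨m, a, ?_, ha, hl⟩
    by_contra hm
    have hm0 : m = 0 := by omega
    subst hm0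
    simp only [pow_zero, inv_one, one_mul] at hl
    have c3 : ContinuousAt (fun z => (H z).2 - (F z).2) 0 := cH0.snd.sub cF0.snd
    have c4 := c3.tendsto.mono_left (nhdsWithin_le_nhds (s := {0}ᶜ))
    have c5 := tendsto_nhds_unique c4 hl
    rw [hH0, sub_self] at c5
    exact ha c5.symm

end Vale.Agent.P247.H324
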