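import Vale.Agent.P247.H324.Sheet

/-! Leading term of an almost complex curve at a point. -/

open Set Metric Filter Topology Asymptotics
open scoped ContDiff

noncomputable section

namespace Vale.Agent.P247.H324

open Vale.Agent.P272.CT

theorem dpx {F : ℂ → C2} {U : Set ℂ} (hU : IsOpen U) (hF : ContDiffOn ℝ 2 F U) {z : ℂ}
    (hz : z ∈ U) : HasFDerivAt (px F) ((fderiv ℝ (fderiv ℝ F) z).flip 1) z ∧
      HasFDerivAt (py F) ((fderiv ℝ (fderiv ℝ F) z).flip Complex.I) z := by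
  have h1 : DifferentiableAt ℝ (fderiv ℝ F) z := by
    have h2 : ContDiffOn ℝ 1 (fderiv ℝ F) U := hF.fderiv_of_isOpen hU (by norm_num)
    exact (h2.differentiableOn (by simp)).differentiableAt (hU.mem_nhds hz)
  constructor
  · have := h1.hasFDerivAt.clm_apply (hasFDerivAt_const (1:ℂ) z)
    exact this.congr_fderiv (by simp)
  · have := h1.hasFDerivAt.clm_apply (hasFDerivAt_const (Complex.I:ℂ) z)
    exact this.congr_fderiv (by simp)

theorem contDiffOn_px {F : ℂ → C2} {U : Set ℂ} (hU : IsOpen U) (hF : ContDiffOn ℝ 2 F U) :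
    ContDiffOn ℝ 1 (px F) U := by
  have h2 : ContDiffOn ℝ 1 (fderiv ℝ F) U := hF.fderiv_of_isOpen hU (by norm_num)
  exact h2.clm_apply contDiffOn_const

/-- the equation for the derivative -/
theorem px_eq {J : AC} (hJ : ContDiff ℝ 1 J) {F : ℂ → C2} {U : Set ℂ} (hU : IsOpen U)
    (hF : ContDiffOn ℝ 2 F U) (hJF : ∀ z ∈ U, py F z = J (F z) (px F z)) {z : ℂ} (hz : z ∈ U) :
    py (px F) z - J (F z) (px (px F) z) = (fderiv ℝ (fun z => J (F z)) z 1) (px F z) := by
  have h1 := (dpx hU hF hz).1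
  have h2 := (dpx hU hF hz).2
  have hsym : IsSymmSndFDerivAt ℝ F z :=
    (hF.contDiffAt (hU.mem_nhds hz)).isSymmSndFDerivAt (by simp)
  have hFd : DifferentiableAt ℝ F z :=
    (hF.differentiableOn (by simp)).differentiableAt (hU.mem_nhds hz)
  have hJFd : DifferentiableAt ℝ (fun z => J (F z)) z :=
    ((hJ.differentiable (by simp)) (F z)).comp z hFd
  have h3 : py (px F) z = px (py F) z := by
    simp only [px, py] at *
    rw [h1.fderiv, h2.fderiv]
    simp only [ContinuousLinearMap.flip_apply]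
    exact hsym _ _
  have h4 : (py F) =ᶠ[𝓝 z] fun z => J (F z) (px F z) := by
    filter_upwards [hU.mem_nhds hz] with w hw using hJF w hw
  have h5 : HasFDerivAt (fun z => J (F z) (px F z)) _ z :=
    hJFd.hasFDerivAt.clm_apply h1
  have h6 : px (py F) z = J (F z) (px (px F) z) + (fderiv ℝ (fun z => J (F z)) z 1) (px F z) := by
    simp only [px, py] at *
    rw [h4.fderiv_eq, h5.fderiv, h1.fderiv]
    simp
  rw [h3, h6]; abel

/-- `F` has leading term `z^k b` at `0`, together with its derivative. -/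
structure Lead (F : ℂ → C2) (k : ℕ) (b : C2) : Prop where
  one_le : 1 ≤ k
  ne : b ≠ 0
  d : (fun z => fderiv ℝ F z - fderiv ℝ (fun z : ℂ => z ^ k • b) z) =o[𝓝 0] fun z => ‖z‖ ^ (k - 1)
  f : (fun z => F z - F 0 - z ^ k • b) =o[𝓝 0] fun z => ‖z‖ ^ k

theorem hasFDerivAt_zpow_smul (k : ℕ) (b : C2) (z : ℂ) :
    HasFDerivAt (fun z : ℂ => z ^ k • b)
      (((k * z ^ (k-1) : ℂ) • (ContinuousLinearMap.toSpanSingleton ℂ b)).restrictScalars ℝ) z := by
  have h1 : HasDerivAt (fun z : ℂ => z ^ k) (k * z ^ (k-1)) z := hasDerivAt_pow k z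
  have h2 := (h1.smul_const b).hasFDerivAt.restrictScalars ℝ
  refine h2.congr_fderiv ?_
  ext w <;> simp <;> ring

theorem fderiv_zpow_smul (k : ℕ) (b : C2) (z w : ℂ) :
    fderiv ℝ (fun z : ℂ => z ^ k • b) z w = (k * z ^ (k-1) * w) • b := by
  rw [(hasFDerivAt_zpow_smul k b z).fderiv]
  simp [smul_smul]

theorem fderiv_le_of_px {L : ℂ →L[ℝ] C2} {c : ℝ} (hc : 0 ≤ c) (h1 : ‖L 1‖ ≤ c)
    (h2 : ‖L Complex.I‖ ≤ c) : ‖L‖ ≤ 2 * c := by
  refine ContinuousLinearMap.opNorm_le_bound _ (by positivity) (fun w => ?_)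
  have e : w = w.re • (1:ℂ) + w.im • Complex.I := by
    apply Complex.ext <;> simp
  have e1 : L w = w.re • L 1 + w.im • L Complex.I := by
    conv_lhs => rw [e]
    rw [map_add, map_smul, map_smul]
  rw [e1]
  refine (norm_add_le _ _).trans ?_
  rw [norm_smul, norm_smul]
  have h3 : ‖w.re‖ ≤ ‖w‖ := Complex.abs_re_le_norm w
  have h4 : ‖w.im‖ ≤ ‖w‖ := Complex.abs_im_le_norm w
  calc ‖w.re‖ * ‖L 1‖ + ‖w.im‖ * ‖L Complex.I‖ ≤ ‖w‖ * c + ‖w‖ * c := by gcongr
    _ = 2 * c * ‖w‖ := by ring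

/-- integration of the leading term -/
theorem lead_of_deriv {F : ℂ → C2} {R : ℝ} (hR : 0 < R) (hF : DifferentiableOn ℝ F (ball 0 R))
    {k : ℕ} {b : C2} (hk : 1 ≤ k) (hb : b ≠ 0)
    (hd : (fun z => fderiv ℝ F z - fderiv ℝ (fun z : ℂ => z ^ k • b) z) =o[𝓝 0]
      fun z => ‖z‖ ^ (k - 1)) : Lead F k b := by
  refine ⟨hk, hb, hd, ?_⟩
  rw [isLittleO_iff]
  intro ε hε
  have h1 := (isLittleO_iff.1 hd) hε
  obtain ⟨r, hr, h2⟩ := Metric.eventually_nhds_iff_ball.1 h1
  have hrR : 0 < min r R := lt_min hr hR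
  filter_upwards [ball_mem_nhds (0:ℂ) hrR] with z hz
  have hz' : ‖z‖ < min r R := by simpa using hz
  set G : ℂ → C2 := fun z => F z - z ^ k • b with hG
  have hsub : closedBall (0:ℂ) ‖z‖ ⊆ ball 0 (min r R) := by
    intro w hw
    rw [mem_closedBall_zero_iff] at hw
    rw [mem_ball_zero_iff]
    exact hw.trans_lt hz'
  have hFd : ∀ w ∈ closedBall (0:ℂ) ‖z‖, DifferentiableAt ℝ F w := by
    intro w hw
    exact hF.differentiableAt (isOpen_ball.mem_nhds
      (ball_subset_ball (min_le_right _ _) (hsub hw)))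
  have hGd : ∀ w ∈ closedBall (0:ℂ) ‖z‖, DifferentiableAt ℝ G w := fun w hw =>
    (hFd w hw).sub (hasFDerivAt_zpow_smul k b w).differentiableAt
  have hGb : ∀ w ∈ closedBall (0:ℂ) ‖z‖, ‖fderiv ℝ G w‖ ≤ ε * ‖z‖ ^ (k-1) := by
    intro w hw
    have e1 : fderiv ℝ G w = fderiv ℝ F w - fderiv ℝ (fun z : ℂ => z ^ k • b) w :=
      fderiv_sub (hFd w hw) (hasFDerivAt_zpow_smul k b w).differentiableAt
    rw [e1]
    have e2 := h2 w (ball_subset_ball (min_le_left _ _) (hsub hw))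
    refine e2.trans ?_
    rw [Real.norm_of_nonneg (by positivity)]
    rw [mem_closedBall_zero_iff] at hw
    gcongr
  have h3 := (convex_closedBall (0:ℂ) ‖z‖).norm_image_sub_le_of_norm_fderiv_le hGd hGb
    (mem_closedBall_self (norm_nonneg z)) (by simp : z ∈ closedBall (0:ℂ) ‖z‖)
  have hG0 : G 0 = F 0 := by
    simp [hG, zero_pow (by omega : k ≠ 0)]
  rw [hG0, sub_zero] at h3
  have e4 : F z - F 0 - z ^ k • b = G z - F 0 := by simp only [hG]; abel
  rw [e4, Real.norm_of_nonneg (by positivity)]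
  refine h3.trans (le_of_eq ?_)
  rw [mul_assoc, ← pow_succ, Nat.sub_add_cancel hk]

/-- Dichotomy: an almost complex curve has locally vanishing derivative or a leading term. -/
theorem lead_exists {J : AC} (hJ : ContDiff ℝ 1 J) (hsq : ∀ x v, J x (J x v) = -v)
    {F : ℂ → C2} {R : ℝ} (hR : 0 < R) (hF : ContDiffOn ℝ 2 F (ball 0 R))
    (h0 : J (F 0) = iL C2) (hJF : ∀ z ∈ ball (0:ℂ) R, py F z = J (F z) (px F z)) :
    (∃ r > 0, ∀ z ∈ ball (0:ℂ) r, px F z = 0) ∨ ∃ (k : ℕ) (b : C2), Lead F k b := by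
  -- shrink
  set R' := R / 2 with hR'
  have hR'p : 0 < R' := by positivity
  have hss : closedBall (0:ℂ) R' ⊆ ball 0 R := closedBall_subset_ball (by linarith)
  have s1 : ball (0:ℂ) R' \ {0} ⊆ ball (0:ℂ) R := fun z hz => hss (ball_subset_closedBall hz.1)
  have cpx : ContDiffOn ℝ 1 (px F) (ball 0 R) := contDiffOn_px isOpen_ball hF
  have cJF : ContDiffOn ℝ 1 (fun z => J (F z)) (ball 0 R) :=
    hJ.comp_contDiffOn (hF.of_le (by norm_num))
  have cdJF := cJF.continuousOn_fderiv_of_isOpen isOpen_ball (by simp)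
  obtain ⟨A, hA⟩ : ∃ A, ∀ z ∈ closedBall (0:ℂ) R', ‖px F z‖ ≤ A :=
    (isCompact_closedBall _ _).exists_bound_of_continuousOn (cpx.continuousOn.mono hss)
  obtain ⟨C1, hC1⟩ : ∃ C1, ∀ z ∈ closedBall (0:ℂ) R', ‖fderiv ℝ (fun z => J (F z)) z‖ ≤ C1 :=
    (isCompact_closedBall (0:ℂ) R').exists_bound_of_continuousOn (cdJF.mono hss)
  have hlim : Tendsto (fun z => J (F z)) (𝓝 0) (𝓝 (iL C2)) := by
    have c1 : ContinuousAt (fun z => J (F z)) 0 :=
      (cJF.continuousOn).continuousAt (ball_mem_nhds _ hR)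
    have := c1.tendsto
    rwa [h0] at this
  have key := sp_frame (𝒥 := fun z => J (F z)) (u := px F) (C := C1) (C1 := C1) (A := A) hR'p
    (cpx.mono s1) (cJF.mono s1) (fun z _ v => hsq _ v) (hlim.mono_left nhdsWithin_le_nhds)
    (fun z hz => hC1 z (ball_subset_closedBall hz.1))
    (fun z hz => hA z (ball_subset_closedBall hz.1))
    (fun z hz => by
      rw [px_eq hJ isOpen_ball hF hJF (s1 hz)]
      have e1 := (fderiv ℝ (fun z => J (F z)) z).le_opNorm 1
      rw [norm_one, mul_one] at e1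
      exact (ContinuousLinearMap.le_opNorm _ _).trans (by
        gcongr
        exact e1.trans (hC1 z (ball_subset_closedBall hz.1))))
  rcases key with ⟨r, hr, h⟩ | ⟨m, a, ha, hl⟩
  · left
    refine ⟨min r R, lt_min hr hR, fun z hz => ?_⟩
    by_cases hz0 : z = 0
    · -- by continuity
      subst hz0
      have c1 : ContinuousAt (px F) 0 := cpx.continuousOn.continuousAt (ball_mem_nhds _ hR)
      have c2 : Tendsto (px F) (𝓝[≠] 0) (𝓝 (px F 0)) := c1.tendsto.mono_left nhdsWithin_le_nhds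
      have c3 : Tendsto (px F) (𝓝[≠] 0) (𝓝 0) := by
        refine tendsto_const_nhds.congr' ?_
        rw [EventuallyEq, eventually_nhdsWithin_iff]
        filter_upwards [ball_mem_nhds (0:ℂ) hr] with w hw hw0
        exact (h w ⟨hw, hw0⟩).symm
      exact tendsto_nhds_unique c2 c3
    · exact h z ⟨ball_subset_ball (min_le_left _ _) hz, hz0⟩
  · right
    refine ⟨m + 1, ((m+1 : ℕ) : ℂ)⁻¹ • a, ?_⟩
    have hm : ((m+1 : ℕ) : ℂ) ≠ 0 := by exact_mod_cast Nat.succ_ne_zero m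
    refine lead_of_deriv hR (hF.differentiableOn (by simp)) (by omega)
      (smul_ne_zero (inv_ne_zero hm) ha) ?_
    rw [isLittleO_iff]
    intro ε hε
    simp only [Nat.add_sub_cancel]
    -- px F is close to z^m a
    have e1 : ∀ᶠ z in 𝓝 (0:ℂ), ‖px F z - z ^ m • a‖ ≤ (ε/8) * ‖z‖ ^ m := by
      have f1 : ∀ᶠ z in 𝓝[≠] (0:ℂ), ‖(z^m)⁻¹ • px F z - a‖ < ε/8 := by
        have := (tendsto_iff_norm_sub_tendsto_zero.1 hl).eventually (gt_mem_nhds (by positivity : (0:ℝ) < ε/8))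
        exact this
      rw [eventually_nhdsWithin_iff] at f1
      have f2 : ∀ᶠ z in 𝓝 (0:ℂ), z ≠ 0 → ‖px F z - z ^ m • a‖ ≤ (ε/8) * ‖z‖ ^ m := by
        filter_upwards [f1] with z hz hz0
        have h3 := hz hz0
        have hzm : (z^m : ℂ) ≠ 0 := pow_ne_zero _ hz0
        have h4 : px F z - z ^ m • a = z^m • ((z^m)⁻¹ • px F z - a) := by
          rw [smul_sub, smul_smul, mul_inv_cancel₀ hzm, one_smul]
        rw [h4, norm_smul, norm_pow, mul_comm]
        gcongr
      have c1 : ContinuousAt (px F) 0 := cpx.continuousOn.continuousAt (ball_mem_nhds _ hR)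
      have c2 : ‖px F 0 - (0:ℂ) ^ m • a‖ ≤ (ε/8) * ‖(0:ℂ)‖ ^ m := by
        have l1 : Tendsto (fun z => ‖px F z - z ^ m • a‖) (𝓝[≠] 0) (𝓝 ‖px F 0 - (0:ℂ) ^ m • a‖) := by
          have : ContinuousAt (fun z => ‖px F z - z ^ m • a‖) 0 := by fun_prop
          exact this.tendsto.mono_left nhdsWithin_le_nhds
        have l2 : Tendsto (fun z : ℂ => (ε/8) * ‖z‖ ^ m) (𝓝[≠] 0) (𝓝 ((ε/8) * ‖(0:ℂ)‖ ^ m)) := by
          have : ContinuousAt (fun z : ℂ => (ε/8) * ‖z‖ ^ m) 0 := by fun_prop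
          exact this.tendsto.mono_left nhdsWithin_le_nhds
        refine le_of_tendsto_of_tendsto l1 l2 ?_
        rw [EventuallyLE, eventually_nhdsWithin_iff]
        exact f2
      filter_upwards [f2] with z hz
      by_cases hz0 : z = 0
      · rw [hz0]; exact c2
      · exact hz hz0
    set δ := min 1 (ε / (8 * (‖a‖ + 1))) with hδ
    have hδp : 0 < δ := lt_min one_pos (by positivity)
    have e2 : ∀ᶠ z in 𝓝 (0:ℂ), ‖J (F z) - iL C2‖ < δ := by
      have := (tendsto_iff_norm_sub_tendsto_zero.1 hlim).eventually (gt_mem_nhds hδp)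
      exact this
    filter_upwards [e1, e2, ball_mem_nhds (0:ℂ) hR] with z h1 h2 hz
    rw [Real.norm_of_nonneg (by positivity)]
    have hval : ∀ w : ℂ, fderiv ℝ (fun z : ℂ => z ^ (m+1) • (((m+1 : ℕ) : ℂ)⁻¹ • a)) z w
        = (z ^ m * w) • a := by
      intro w
      rw [fderiv_zpow_smul, smul_smul, Nat.add_sub_cancel]
      congr 1
      field_simp
    have g1 : ‖(fderiv ℝ F z - fderiv ℝ (fun z : ℂ => z ^ (m+1) • (((m+1 : ℕ) : ℂ)⁻¹ • a)) z) 1‖
        ≤ (ε/2) * ‖z‖ ^ m := by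
      rw [sub_apply, hval, mul_one]
      refine h1.trans ?_
      gcongr
      linarith
    have g2 : ‖(fderiv ℝ F z - fderiv ℝ (fun z : ℂ => z ^ (m+1) • (((m+1 : ℕ) : ℂ)⁻¹ • a)) z)
        Complex.I‖ ≤ (ε/2) * ‖z‖ ^ m := by
      rw [sub_apply, hval]
      have k1 : fderiv ℝ F z Complex.I = J (F z) (px F z) := hJF z hz
      have k2 : fderiv ℝ F z Complex.I - (z ^ m * Complex.I) • a =
          (J (F z) - iL C2) (px F z) + Complex.I • (px F z - z^m • a) := by
        rw [k1, sub_apply, iL_apply, smul_sub, smul_smul, mul_comm (z^m)]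
        abel
      rw [k2]
      have k3 : ‖px F z‖ ≤ (ε/8) * ‖z‖^m + ‖z‖^m * ‖a‖ := by
        have := norm_add_le (px F z - z^m • a) (z^m • a)
        rw [sub_add_cancel, norm_smul, norm_pow] at this
        linarith
      have hn := pow_nonneg (norm_nonneg z) m
      calc ‖(J (F z) - iL C2) (px F z) + Complex.I • (px F z - z^m • a)‖
          ≤ ‖(J (F z) - iL C2) (px F z)‖ + ‖Complex.I • (px F z - z^m • a)‖ := norm_add_le _ _
        _ ≤ δ * ((ε/8) * ‖z‖^m + ‖z‖^m * ‖a‖) + (ε/8) * ‖z‖ ^ m := by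
            rw [norm_smul, Complex.norm_I, one_mul]
            gcongr
            refine (ContinuousLinearMap.le_opNorm _ _).trans ?_
            gcongr
        _ ≤ (ε/2) * ‖z‖ ^ m := by
            have q1 : δ * (ε/8) ≤ ε/8 := by
              have : δ ≤ 1 := min_le_left _ _
              nlinarith
            have q2 : δ * ‖a‖ ≤ ε/8 := by
              have : δ ≤ ε / (8 * (‖a‖ + 1)) := min_le_right _ _
              calc δ * ‖a‖ ≤ (ε / (8 * (‖a‖ + 1))) * (‖a‖ + 1) := by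
                    gcongr
                    linarith
                _ = ε/8 := by field_simp
            nlinarith
    calc _ ≤ 2 * ((ε/2) * ‖z‖ ^ m) := fderiv_le_of_px (by positivity) g1 g2
      _ = ε * ‖z‖ ^ m := by ring

end Vale.Agent.P247.H324
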