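import Vale.Agent.P272.CT.Calc
import Vale.Agent.P272.CT.Weak

/-! Local form of vector valued functions with `‖∂̄u‖ ≤ C ‖u‖`. -/

open MeasureTheory Set Metric Filter Topology Asymptotics
open scoped ContDiff

set_option linter.unusedSectionVars false

noncomputable section

namespace Vale.Agent.P247.H324

open Vale.Agent.P272.CT

variable {E : Type*} [NormedAddCommGroup E] [NormedSpace ℂ E] [CompleteSpace E]

/-- the punctured unit disc -/
def pd : Set ℂ := ball (0 : ℂ) 1 \ {0}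

theorem isOpen_pd : IsOpen pd := isOpen_ball.sdiff isClosed_singleton

theorem pd_subset : pd ⊆ ball (0 : ℂ) 1 := sdiff_subset

/-- constant in the sup bound for the Cauchy transform -/
def c1 : ℝ := cst 0 1 / Real.pi

theorem c1_nonneg : 0 ≤ c1 := div_nonneg (cst_nonneg _ _) Real.pi_pos.le

/-- a bounded function on the punctured disc, continuous there -/
theorem wb_of {F : ℂ → E} {A : ℝ} (hA : 0 ≤ A) (hF : ContinuousOn F pd)
    (hb : ∀ z ∈ pd, ‖F z‖ ≤ A) : WB 0 A (fun z => if z = 0 then 0 else F z) := by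
  refine WB.of_bdd le_rfl ?_ ?_
  · have h1 : AEStronglyMeasurable F (volume.restrict pd) :=
      hF.aestronglyMeasurable isOpen_pd.measurableSet
    have h2 : volume.restrict (ball (0 : ℂ) 1) = volume.restrict pd := by
      refine Measure.restrict_congr_set ?_
      refine (sdiff_null_ae_eq_self ?_).symm
      simp
    rw [h2]
    refine h1.congr ?_
    filter_upwards [ae_restrict_mem isOpen_pd.measurableSet] with z hz
    rw [if_neg]
    exact hz.2
  · intro w hw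
    by_cases h : w = 0
    · simp [h, hA]
    · simp only [h, if_false]
      exact hb w ⟨hw, h⟩

/-- Lipschitz bound at the centre for the Cauchy transform of a function vanishing there. -/
theorem cauT_lip {F : ℂ → E} {A A' h : ℝ} (hA : 0 ≤ A) (h0 : 0 < h) (h1 : h ≤ 1)
    (hF : WB 0 A' F) (hb : ∀ z ∈ ball (0 : ℂ) 1, z ≠ 0 → ‖F z‖ ≤ A * ‖z‖ ^ h) (z : ℂ) :
    ‖cauT F z - cauT F 0‖ ≤ 2 * cst 0 (2 - h) / Real.pi * A * ‖z‖ := by
  have hpi := Real.pi_pos
  have hI := hF.integrableOn_ker le_rfl one_pos z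
  have hI' := hF.integrableOn_ker le_rfl one_pos 0
  have hK := integrableOn_kernel (α := 0) (β := 2 - h) le_rfl (by linarith) (by linarith) z
  have hK' := integrableOn_kernel (α := 0) (β := 2 - h) le_rfl (by linarith) (by linarith) 0
  simp only [neg_zero, Real.rpow_zero, one_mul] at hK hK'
  have e1 : cauT F z - cauT F 0 = ((Real.pi : ℝ) : ℂ)⁻¹ •
      ∫ w in ball (0 : ℂ) 1, ((z - w)⁻¹ - (0 - w)⁻¹) • F w := by
    rw [cauT, cauT, ← smul_sub, ← integral_sub hI hI']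
    congr 1
    refine integral_congr_ae (Eventually.of_forall fun w => ?_)
    simp only
    rw [sub_smul]
  have hne : ∀ x : ℂ, ∀ᵐ w : ℂ ∂(volume.restrict (ball (0 : ℂ) 1)), w ≠ x := by
    intro x
    refine ae_restrict_of_ae ?_
    rw [ae_iff]; simp
  have e2 : ‖∫ w in ball (0 : ℂ) 1, ((z - w)⁻¹ - (0 - w)⁻¹) • F w‖ ≤
      ‖z‖ * A * (cst 0 (2 - h) + cst 0 (2 - h)) := by
    calc ‖∫ w in ball (0 : ℂ) 1, ((z - w)⁻¹ - (0 - w)⁻¹) • F w‖
        ≤ ∫ w in ball (0 : ℂ) 1, ‖z‖ * A * (‖z - w‖ ^ (-(2 - h)) + ‖0 - w‖ ^ (-(2 - h))) := by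
          refine norm_integral_le_of_norm_le ((hK.add hK').const_mul _) ?_
          filter_upwards [ae_restrict_mem measurableSet_ball, hne z, hne 0] with w hw hwz hw0
          have hb' := hb w hw hw0
          have hzw : z - w ≠ 0 := sub_ne_zero.2 (Ne.symm hwz)
          have hw' : (0 : ℂ) - w ≠ 0 := sub_ne_zero.2 (Ne.symm hw0)
          have p1 : 0 < ‖z - w‖ := norm_pos_iff.2 hzw
          have p2 : 0 < ‖w‖ := norm_pos_iff.2 hw0
          have e3 : (z - w)⁻¹ - (0 - w)⁻¹ = - (z * ((z - w)⁻¹ * (0 - w)⁻¹)) := by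
            field_simp
            ring
          rw [norm_smul, e3, norm_neg, norm_mul, norm_mul, norm_inv, norm_inv, zero_sub, norm_neg]
          have e4 : ‖z - w‖⁻¹ * (‖w‖⁻¹ * ‖w‖ ^ h) ≤
              ‖z - w‖ ^ (-(2 - h)) + ‖w‖ ^ (-(2 - h)) := by
            have e5 : ‖w‖⁻¹ * ‖w‖ ^ h = ‖w‖ ^ (-(1 - h)) := by
              rw [← Real.rpow_neg_one, ← Real.rpow_add p2]; congr 1; ring
            rw [e5]
            have e6 : ‖z - w‖⁻¹ = ‖z - w‖ ^ (-(1:ℝ)) := (Real.rpow_neg_one _).symm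
            rw [e6]
            have := rpow_split p1 p2 (show (0:ℝ) ≤ 1 by norm_num) (show (0:ℝ) ≤ 1 - h by linarith)
            have e7 : (1 : ℝ) + (1 - h) = 2 - h := by ring
            rw [e7] at this
            exact this
          calc ‖z‖ * (‖z - w‖⁻¹ * ‖w‖⁻¹) * ‖F w‖
              ≤ ‖z‖ * (‖z - w‖⁻¹ * ‖w‖⁻¹) * (A * ‖w‖ ^ h) := by gcongr
            _ = ‖z‖ * A * (‖z - w‖⁻¹ * (‖w‖⁻¹ * ‖w‖ ^ h)) := by ring
            _ ≤ ‖z‖ * A * (‖z - w‖ ^ (-(2 - h)) + ‖w‖ ^ (-(2 - h))) := by gcongr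
      _ = ‖z‖ * A * ((∫ w in ball (0 : ℂ) 1, ‖z - w‖ ^ (-(2 - h))) +
            ∫ w in ball (0 : ℂ) 1, ‖0 - w‖ ^ (-(2 - h))) := by
          rw [integral_const_mul, integral_add hK hK']
      _ ≤ _ := by
          have g1 := integral_kernel_le (α := 0) (β := 2 - h) le_rfl (by linarith) (by linarith) z
          have g2 := integral_kernel_le (α := 0) (β := 2 - h) le_rfl (by linarith) (by linarith) 0
          simp only [neg_zero, Real.rpow_zero, one_mul] at g1 g2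
          gcongr
  rw [e1, norm_smul, norm_inv, Complex.norm_real, Real.norm_eq_abs, abs_of_pos hpi]
  calc Real.pi⁻¹ * ‖∫ w in ball (0 : ℂ) 1, ((z - w)⁻¹ - (0 - w)⁻¹) • F w‖
      ≤ Real.pi⁻¹ * (‖z‖ * A * (cst 0 (2 - h) + cst 0 (2 - h))) := by gcongr
    _ = _ := by field_simp; ring

/-- data: `v` is `C¹` on the punctured disc, bounded with bounded `∂̄v` -/
theorem decomp {v : ℂ → E} {A B : ℝ} (hA : 0 ≤ A) (hv : ContDiffOn ℝ 1 v pd)
    (hb : ∀ z ∈ pd, ‖v z‖ ≤ B) (hd : ∀ z ∈ pd, ‖dbarV v z‖ ≤ A) :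
    ∃ H : ℂ → E, DifferentiableOn ℂ H (ball 0 1) ∧
      ∀ z ∈ pd, v z = H z + cauT (fun z => if z = 0 then 0 else dbarV v z) z := by
  have hdc : ContinuousOn (dbarV v) pd := continuousOn_dbarV isOpen_pd hv
  set F : ℂ → E := fun z => if z = 0 then 0 else dbarV v z with hF
  have hW : WB 0 A F := wb_of hA hdc hd
  have hFd : EqOn F (dbarV v) pd := fun z hz => if_neg hz.2
  have hcont : Continuous (cauT F) := hW.continuous_cauT le_rfl one_pos
  have h1 : WDb pd (cauT F) (dbarV v) :=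
    ((wdb_cauT (hW.integrableOn le_rfl one_pos)).mono pd_subset).congr (fun _ _ => rfl) hFd
  have h2 : WDb pd v (dbarV v) := WDb.of_contDiffOn isOpen_pd hv
  have h3 : WDb pd (fun z => v z - cauT F z) (fun _ => 0) := by
    refine (WDb.sub isOpen_pd hv.continuousOn hdc hcont.continuousOn hdc h2 h1).congr
      (fun _ _ => rfl) fun z _ => ?_
    simp
  have h4 : DifferentiableOn ℂ (fun z => v z - cauT F z) pd :=
    h3.holo isOpen_pd (hv.continuousOn.sub hcont.continuousOn)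
  set g : ℂ → E := fun z => v z - cauT F z with hg
  have h5 : g =o[𝓝[≠] 0] fun z => (z - 0)⁻¹ := by
    have hbd : ∀ᶠ z in 𝓝[≠] (0:ℂ), ‖g z‖ ≤ (B + cst 0 1 / Real.pi * A) * ‖(1:ℂ)‖ := by
      have : pd ∈ 𝓝[≠] (0:ℂ) := by
        refine sdiff_mem_nhdsWithin_compl (ball_mem_nhds _ one_pos) _
      filter_upwards [this] with z hz
      rw [norm_one, mul_one]
      exact (norm_sub_le _ _).trans (add_le_add (hb z hz) (hW.norm_cauT_le le_rfl one_pos z))
    have h6 : g =O[𝓝[≠] 0] fun _ : ℂ => (1:ℂ) := IsBigO.of_bound _ hbd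
    refine h6.trans_isLittleO ?_
    rw [isLittleO_iff]
    intro c hc
    have : ball (0:ℂ) c \ {0} ∈ 𝓝[≠] (0:ℂ) :=
      sdiff_mem_nhdsWithin_compl (ball_mem_nhds _ hc) _
    filter_upwards [this] with z hz
    have hz0 : z ≠ 0 := hz.2
    have hzc : ‖z‖ < c := mem_ball_zero_iff.1 hz.1
    rw [sub_zero, norm_inv, norm_one]
    have : 0 < ‖z‖ := norm_pos_iff.2 hz0
    rw [← div_eq_mul_inv, one_le_div this]
    exact hzc.le
  have h7 := Complex.differentiableOn_update_limUnder_of_isLittleO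
    (s := ball (0:ℂ) 1) (c := 0) (f := g) (ball_mem_nhds _ one_pos) h4 (by
      have : (fun z => g z - g 0) =o[𝓝[≠] 0] fun z => (z - 0)⁻¹ := by
        refine h5.sub ?_
        rw [isLittleO_iff]
        intro c hc
        have hc' : 0 < c / (‖g 0‖ + 1) := by positivity
        have : ball (0:ℂ) (c / (‖g 0‖ + 1)) \ {0} ∈ 𝓝[≠] (0:ℂ) :=
          sdiff_mem_nhdsWithin_compl (ball_mem_nhds _ hc') _
        filter_upwards [this] with z hz
        have hz0 : z ≠ 0 := hz.2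
        have hzc : ‖z‖ < c / (‖g 0‖ + 1) := mem_ball_zero_iff.1 hz.1
        rw [sub_zero, norm_inv]
        have : 0 < ‖z‖ := norm_pos_iff.2 hz0
        rw [← div_eq_mul_inv, le_div_iff₀ this]
        rw [lt_div_iff₀ (by positivity)] at hzc
        nlinarith [norm_nonneg (g 0)]
      exact this)
  refine ⟨_, h7, fun z hz => ?_⟩
  rw [Function.update_of_ne hz.2]
  simp [hg]


theorem pd_mem_nhds : pd ∈ 𝓝[≠] (0:ℂ) := sdiff_mem_nhdsWithin_compl (ball_mem_nhds _ one_pos) _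

theorem dbarV_inv_pow (m : ℕ) {u : ℂ → E} {z : ℂ} (hz : z ≠ 0) (hu : DifferentiableAt ℝ u z) :
    dbarV (fun z => (z ^ m)⁻¹ • u z) z = (z ^ m)⁻¹ • dbarV u z := by
  have h1 : DifferentiableAt ℂ (fun z : ℂ => (z ^ m)⁻¹) z :=
    ((differentiableAt_id.pow m).inv (pow_ne_zero m hz))
  rw [dbarV_smul (h1.restrictScalars ℝ) hu]
  have h2 : dbar (fun z : ℂ => (z ^ m)⁻¹) z = 0 :=
    (dbarV_eq_zero_iff (h1.restrictScalars ℝ)).2 h1
  rw [h2, zero_smul, zero_add]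

theorem contDiffOn_inv_pow (m : ℕ) {u : ℂ → E} (hu : ContDiffOn ℝ 1 u pd) :
    ContDiffOn ℝ 1 (fun z => (z ^ m)⁻¹ • u z) pd := by
  refine ContDiffOn.smul ?_ hu
  have h : ContDiffOn ℝ 1 (fun z : ℂ => z ^ m) pd := (contDiff_id.pow m).contDiffOn
  exact h.inv fun z hz => pow_ne_zero m hz.2

/-- hypotheses on the punctured unit disc -/
structure Carl (C A : ℝ) (u : ℂ → E) : Prop where
  C0 : 0 ≤ C
  A0 : 0 ≤ A
  smooth : ContDiffOn ℝ 1 u pd
  bdd : ∀ z ∈ pd, ‖u z‖ ≤ A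
  ineq : ∀ z ∈ pd, ‖dbarV u z‖ ≤ C * ‖u z‖

theorem norm_lt_one {z : ℂ} (hz : z ∈ pd) : ‖z‖ < 1 := mem_ball_zero_iff.1 hz.1

theorem norm_pos' {z : ℂ} (hz : z ∈ pd) : 0 < ‖z‖ := norm_pos_iff.2 hz.2

/-- the step: a bound of order `m` gives a leading coefficient of order `m`, with a rate. -/
theorem Carl.step {C A : ℝ} {u : ℂ → E} (h : Carl C A u) (m : ℕ) {B : ℝ} (hB : 0 ≤ B)
    (hm : ∀ z ∈ pd, ‖u z‖ ≤ B * ‖z‖ ^ m) :
    ∃ a : E, ∃ K : ℝ, 0 ≤ K ∧ (∀ z ∈ pd, ‖(z ^ m)⁻¹ • u z - a‖ ≤ K * ‖z‖ ^ (1/2 : ℝ)) ∧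
      (a = 0 → ∀ z ∈ pd, ‖u z‖ ≤ K * ‖z‖ ^ (m + 1)) := by
  set v : ℂ → E := fun z => (z ^ m)⁻¹ • u z with hvdef
  have hv : ContDiffOn ℝ 1 v pd := contDiffOn_inv_pow m h.smooth
  have hnv : ∀ z ∈ pd, ‖v z‖ = ‖u z‖ / ‖z‖ ^ m := fun z hz => by
    simp only [hvdef]
    rw [norm_smul, norm_inv, norm_pow, div_eq_inv_mul]
  have hb : ∀ z ∈ pd, ‖v z‖ ≤ B := fun z hz => by
    rw [hnv z hz, div_le_iff₀ (pow_pos (norm_pos' hz) m)]
    exact hm z hz
  have hd' : ∀ z ∈ pd, ‖dbarV v z‖ ≤ C * ‖v z‖ := fun z hz => by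
    simp only [hvdef]
    rw [dbarV_inv_pow m hz.2 ((h.smooth.differentiableOn (by simp)).differentiableAt
      (isOpen_pd.mem_nhds hz)), norm_smul, norm_smul]
    calc ‖(z ^ m)⁻¹‖ * ‖dbarV u z‖ ≤ ‖(z ^ m)⁻¹‖ * (C * ‖u z‖) :=
          mul_le_mul_of_nonneg_left (h.ineq z hz) (norm_nonneg _)
      _ = _ := by ring
  have hd : ∀ z ∈ pd, ‖dbarV v z‖ ≤ C * B := fun z hz =>
    (hd' z hz).trans (mul_le_mul_of_nonneg_left (hb z hz) h.C0)
  have hCB : 0 ≤ C * B := mul_nonneg h.C0 hB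
  obtain ⟨H, hH, hvH⟩ := decomp hCB hv hb hd
  set F : ℂ → E := fun z => if z = 0 then 0 else dbarV v z with hFdef
  have hW : WB 0 (C * B) F := wb_of hCB (continuousOn_dbarV isOpen_pd hv) hd
  set a : E := H 0 + cauT F 0 with ha
  -- Lipschitz bound for H
  obtain ⟨K1, hK1, hHl⟩ : ∃ K1 : ℝ, 0 ≤ K1 ∧ ∀ z ∈ ball (0:ℂ) (1/2), ‖H z - H 0‖ ≤ K1 * ‖z‖ := by
    have hc : ContinuousOn (fun z => ‖deriv H z‖) (closedBall (0:ℂ) (1/2)) := by
      have h1 : DifferentiableOn ℂ (deriv H) (ball 0 1) := hH.deriv isOpen_ball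
      exact (h1.continuousOn.mono (closedBall_subset_ball (by norm_num))).norm
    obtain ⟨K, hK⟩ := (isCompact_closedBall (0:ℂ) (1/2)).bddAbove_image hc
    refine ⟨max K 0, le_max_right _ _, fun z hz => ?_⟩
    have h2 := (convex_closedBall (0:ℂ) (1/2)).norm_image_sub_le_of_norm_deriv_le (f := H)
      (C := max K 0) (x := 0) (y := z) (fun x hx => hH.differentiableAt
        (isOpen_ball.mem_nhds (closedBall_subset_ball (by norm_num) hx)))
      (fun x hx => (hK (mem_image_of_mem _ hx)).trans (le_max_left _ _))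
      (mem_closedBall_self (by norm_num)) (ball_subset_closedBall hz)
    simpa using h2
  have hhol := fun z => hW.cauT_holder (h := 1/2) le_rfl (by norm_num) (by norm_num) z 0
  set K2 : ℝ := 4 * cst 0 (1 + 1/2) / Real.pi * (C * B) with hK2
  have hK2' : 0 ≤ K2 := by
    rw [hK2]; have := cst_nonneg 0 (1 + 1/2); have := Real.pi_pos; positivity
  have hsq : ∀ z ∈ pd, ‖z‖ ≤ ‖z‖ ^ (1/2 : ℝ) := fun z hz => by
    have h1 := Real.rpow_le_rpow_of_exponent_ge (norm_pos' hz) (norm_lt_one hz).le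
      (show (1/2 : ℝ) ≤ 1 by norm_num)
    rwa [Real.rpow_one] at h1
  have hnear : ∀ z ∈ pd, z ∈ ball (0:ℂ) (1/2) → ‖v z - a‖ ≤ (K1 + K2) * ‖z‖ ^ (1/2 : ℝ) := by
    intro z hz hz2
    rw [hvH z hz, ha]
    have e : H z + cauT F z - (H 0 + cauT F 0) = (H z - H 0) + (cauT F z - cauT F 0) := by abel
    rw [e]
    refine (norm_add_le _ _).trans ?_
    have h1 := hHl z hz2
    have h2 := hhol z
    rw [sub_zero] at h2
    have h3 := hsq z hz
    have h4 : ‖cauT F z - cauT F 0‖ ≤ K2 * ‖z‖ ^ (1/2 : ℝ) := by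
      rw [hK2]; exact h2
    nlinarith
  have hfar : ∀ z ∈ pd, z ∉ ball (0:ℂ) (1/2) → (1/2 : ℝ) ≤ ‖z‖ := fun z _ hz2 => by
    simpa using hz2
  set K3 : ℝ := 2 * (B + ‖a‖) with hK3
  have hK3' : 0 ≤ K3 := by positivity
  set K4 : ℝ := K1 + K2 + K3 with hK4
  have hK4' : 0 ≤ K4 := by positivity
  have hmain : ∀ z ∈ pd, ‖v z - a‖ ≤ K4 * ‖z‖ ^ (1/2 : ℝ) := by
    intro z hz
    have hp : 0 ≤ ‖z‖ ^ (1/2 : ℝ) := Real.rpow_nonneg (norm_nonneg _) _
    by_cases hz2 : z ∈ ball (0:ℂ) (1/2)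
    · refine (hnear z hz hz2).trans ?_
      rw [hK4]
      nlinarith
    · have h1 := hfar z hz hz2
      have h2 : ‖v z - a‖ ≤ B + ‖a‖ := (norm_sub_le _ _).trans (add_le_add (hb z hz) le_rfl)
      have h3 : (1/2 : ℝ) ≤ ‖z‖ ^ (1/2 : ℝ) := h1.trans (hsq z hz)
      have h4 : B + ‖a‖ ≤ K3 * ‖z‖ ^ (1/2 : ℝ) := by
        rw [hK3]
        have : 0 ≤ B + ‖a‖ := by positivity
        nlinarith
      rw [hK4]
      nlinarith
  -- second part
  set K5 : ℝ := 2 * cst 0 (2 - 1/2) / Real.pi * (C * K4) with hK5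
  have hK5' : 0 ≤ K5 := by
    rw [hK5]; have := cst_nonneg 0 (2 - 1/2); have := Real.pi_pos; have := h.C0; positivity
  refine ⟨a, K4 + (K1 + K5 + 2 * B), by positivity, fun z hz => ?_, fun ha0 z hz => ?_⟩
  · refine (hmain z hz).trans ?_
    refine mul_le_mul_of_nonneg_right ?_ (Real.rpow_nonneg (norm_nonneg _) _)
    have : 0 ≤ K1 + K5 + 2 * B := by positivity
    linarith
  · have h1 : ∀ z ∈ ball (0:ℂ) 1, z ≠ 0 → ‖F z‖ ≤ (C * K4) * ‖z‖ ^ (1/2 : ℝ) := by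
      intro z hz hz0
      have hz' : z ∈ pd := ⟨hz, hz0⟩
      have h2 := hmain z hz'
      rw [ha0, sub_zero] at h2
      simp only [hFdef, if_neg hz0]
      refine (hd' z hz').trans ?_
      rw [mul_assoc]
      exact mul_le_mul_of_nonneg_left h2 h.C0
    have h3 := cauT_lip (h := 1/2) (by have := h.C0; positivity) (by norm_num) (by norm_num) hW h1
    have h4 : ‖v z‖ ≤ (K1 + K5 + 2 * B) * ‖z‖ := by
      by_cases hz2 : z ∈ ball (0:ℂ) (1/2)
      · have e : v z = (H z - H 0) + (cauT F z - cauT F 0) := by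
          have : v z = v z - a := by rw [ha0, sub_zero]
          rw [this, hvH z hz, ha]
          abel
        rw [e]
        refine (norm_add_le _ _).trans ?_
        have h5 := hHl z hz2
        have h6 := h3 z
        have h7 : ‖cauT F z - cauT F 0‖ ≤ K5 * ‖z‖ := by rw [hK5]; exact h6
        have := norm_nonneg z
        nlinarith
      · have h5 := hfar z hz hz2
        have h6 := hb z hz
        have : 0 ≤ K1 + K5 := by positivity
        nlinarith [norm_nonneg z]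
    rw [hnv z hz, div_le_iff₀ (pow_pos (norm_pos' hz) m)] at h4
    refine h4.trans ?_
    rw [mul_assoc, ← pow_succ']
    refine mul_le_mul_of_nonneg_right ?_ (by positivity)
    linarith

/-- vanishing of infinite order -/
theorem Carl.infinite {C A : ℝ} {u : ℂ → E} (h : Carl C A u) (hC : C * c1 ≤ 1/4)
    (hm : ∀ m : ℕ, ∃ B : ℝ, ∀ z ∈ pd, ‖u z‖ ≤ B * ‖z‖ ^ m) : ∀ z ∈ pd, u z = 0 := by
  have key : ∀ m : ℕ, ∀ z ∈ pd, ‖u z‖ ≤ 2 * A * ‖z‖ ^ m := by
    intro m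
    obtain ⟨B0, hB0⟩ := hm m
    set v : ℂ → E := fun z => (z ^ m)⁻¹ • u z with hvdef
    have hv : ContDiffOn ℝ 1 v pd := contDiffOn_inv_pow m h.smooth
    have hnv : ∀ z ∈ pd, ‖v z‖ = ‖u z‖ / ‖z‖ ^ m := fun z hz => by
      simp only [hvdef]
      rw [norm_smul, norm_inv, norm_pow, div_eq_inv_mul]
    have hbd : BddAbove ((fun z => ‖v z‖) '' pd) := by
      refine ⟨B0, ?_⟩
      rintro _ ⟨z, hz, rfl⟩
      simp only
      rw [hnv z hz, div_le_iff₀ (pow_pos (norm_pos' hz) m)]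
      exact hB0 z hz
    set S : ℝ := sSup ((fun z => ‖v z‖) '' pd) with hS
    have hpd : (1/2 : ℂ) ∈ pd := by
      refine ⟨?_, by simp⟩
      rw [mem_ball_zero_iff]; norm_num
    have hvS : ∀ z ∈ pd, ‖v z‖ ≤ S := fun z hz => le_csSup hbd (mem_image_of_mem _ hz)
    have hS0 : 0 ≤ S := (norm_nonneg _).trans (hvS _ hpd)
    have hd' : ∀ z ∈ pd, ‖dbarV v z‖ ≤ C * ‖v z‖ := fun z hz => by
      simp only [hvdef]
      rw [dbarV_inv_pow m hz.2 ((h.smooth.differentiableOn (by simp)).differentiableAt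
        (isOpen_pd.mem_nhds hz)), norm_smul, norm_smul]
      calc ‖(z ^ m)⁻¹‖ * ‖dbarV u z‖ ≤ ‖(z ^ m)⁻¹‖ * (C * ‖u z‖) :=
            mul_le_mul_of_nonneg_left (h.ineq z hz) (norm_nonneg _)
        _ = _ := by ring
    have hd : ∀ z ∈ pd, ‖dbarV v z‖ ≤ C * S := fun z hz =>
      (hd' z hz).trans (mul_le_mul_of_nonneg_left (hvS z hz) h.C0)
    have hCS : 0 ≤ C * S := mul_nonneg h.C0 hS0
    obtain ⟨H, hH, hvH⟩ := decomp hCS hv hvS hd
    set F : ℂ → E := fun z => if z = 0 then 0 else dbarV v z with hFdef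
    have hW : WB 0 (C * S) F := wb_of hCS (continuousOn_dbarV isOpen_pd hv) hd
    have hcT : ∀ z, ‖cauT F z‖ ≤ S / 4 := fun z => by
      have h1 := hW.norm_cauT_le le_rfl one_pos z
      have h2 : cst 0 1 / Real.pi * (C * S) = (C * c1) * S := by rw [c1]; ring
      rw [h2] at h1
      nlinarith
    -- bound for `H` on the disc of radius `r`
    have hHr : ∀ r : ℝ, 0 < r → r < 1 → ∀ z ∈ closedBall (0:ℂ) r, ‖H z‖ ≤ A / r ^ m + S / 4 := by
      intro r hr hr1 z hz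
      have hcl : closure (ball (0:ℂ) r) = closedBall 0 r := closure_ball _ hr.ne'
      have hdc : DiffContOnCl ℂ H (ball 0 r) := by
        refine (hH.mono ?_).diffContOnCl
        rw [hcl]
        exact closedBall_subset_ball hr1
      refine Complex.norm_le_of_forall_mem_frontier_norm_le isBounded_ball hdc ?_ (hcl ▸ hz)
      intro w hw
      rw [frontier_ball _ hr.ne', mem_sphere_zero_iff_norm] at hw
      have hwp : w ∈ pd := by
        refine ⟨by rw [mem_ball_zero_iff, hw]; exact hr1, ?_⟩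
        intro h0
        rw [mem_singleton_iff] at h0
        rw [h0, norm_zero] at hw
        exact hr.ne hw
      have e : H w = v w - cauT F w := by rw [hvH w hwp]; simp
      rw [e]
      refine (norm_sub_le _ _).trans (add_le_add ?_ (hcT w))
      rw [hnv w hwp, hw]
      gcongr
      exact h.bdd w hwp
    have hH1 : ∀ z ∈ pd, ‖H z‖ ≤ A + S / 4 := by
      intro z hz
      have ht : Tendsto (fun r : ℝ => A / r ^ m + S / 4) (𝓝[<] 1) (𝓝 (A / 1 ^ m + S / 4)) := by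
        have hc : ContinuousAt (fun r : ℝ => A / r ^ m + S / 4) 1 := by
          refine ContinuousAt.add (ContinuousAt.div continuousAt_const
            (continuousAt_id.pow m) (by simp)) continuousAt_const
        exact hc.tendsto.mono_left nhdsWithin_le_nhds
      rw [one_pow, div_one] at ht
      refine ge_of_tendsto ht ?_
      have h1 : Ioo ‖z‖ 1 ∈ 𝓝[<] (1:ℝ) := Ioo_mem_nhdsLT (norm_lt_one hz)
      filter_upwards [h1] with r hr
      exact hHr r ((norm_nonneg z).trans_lt hr.1) hr.2 z (by simpa using hr.1.le)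
    have hvb : ∀ z ∈ pd, ‖v z‖ ≤ A + S / 2 := by
      intro z hz
      rw [hvH z hz]
      refine (norm_add_le _ _).trans ?_
      have := hH1 z hz
      have := hcT z
      linarith
    have hSle : S ≤ A + S / 2 := by
      refine csSup_le ⟨_, mem_image_of_mem _ hpd⟩ ?_
      rintro _ ⟨z, hz, rfl⟩
      exact hvb z hz
    intro z hz
    have h1 := (hvS z hz).trans (show S ≤ 2 * A by linarith)
    rwa [hnv z hz, div_le_iff₀ (pow_pos (norm_pos' hz) m)] at h1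
  intro z hz
  have ht : Tendsto (fun m : ℕ => 2 * A * ‖z‖ ^ m) atTop (𝓝 (2 * A * 0)) :=
    (tendsto_pow_atTop_nhds_zero_of_lt_one (norm_nonneg _) (norm_lt_one hz)).const_mul _
  rw [mul_zero] at ht
  have h1 : ‖u z‖ ≤ 0 := ge_of_tendsto ht (Eventually.of_forall fun m => key m z hz)
  exact norm_le_zero_iff.1 h1

/-- **local form**, on the unit disc -/
theorem Carl.main {C A : ℝ} {u : ℂ → E} (h : Carl C A u) (hC : C * c1 ≤ 1/4) :
    (∀ z ∈ pd, u z = 0) ∨ ∃ m : ℕ, ∃ a : E, a ≠ 0 ∧ ∃ K : ℝ, 0 ≤ K ∧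
      ∀ z ∈ pd, ‖(z ^ m)⁻¹ • u z - a‖ ≤ K * ‖z‖ ^ (1/2 : ℝ) := by
  by_cases hcase : ∀ m : ℕ, ∃ B : ℝ, 0 ≤ B ∧ ∀ z ∈ pd, ‖u z‖ ≤ B * ‖z‖ ^ m
  · left
    refine h.infinite hC fun m => ?_
    obtain ⟨B, -, hB⟩ := hcase m
    exact ⟨B, hB⟩
  · right
    push Not at hcase
    classical
    have hex : ∃ m : ℕ, ∀ B : ℝ, 0 ≤ B → ∃ z ∈ pd, B * ‖z‖ ^ m < ‖u z‖ := hcase
    set n := Nat.find hex with hn
    have hn' := Nat.find_spec hex
    have hn0 : n ≠ 0 := by
      intro h0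
      rw [← hn, h0] at hn'
      obtain ⟨z, hz, hlt⟩ := hn' A h.A0
      rw [pow_zero, mul_one] at hlt
      exact absurd (h.bdd z hz) (not_le.2 hlt)
    obtain ⟨m, hm⟩ := Nat.exists_eq_succ_of_ne_zero hn0
    have hmin := Nat.find_min hex (m := m) (by rw [← hn, hm]; exact Nat.lt_succ_self m)
    push Not at hmin
    obtain ⟨B, hB, hBm⟩ := hmin
    obtain ⟨a, K, hK, h1, h2⟩ := h.step m hB hBm
    refine ⟨m, a, ?_, K, hK, h1⟩
    intro ha
    obtain ⟨z, hz, hlt⟩ := hn' K hK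
    have := h2 ha z hz
    rw [← hn, hm] at hlt
    exact absurd this (not_le.2 hlt)


/-- **Local form of solutions of `‖∂̄u‖ ≤ C‖u‖`** (similarity principle, vector valued): a bounded
solution on a punctured disc vanishes identically near the centre, or behaves like `a zᵐ`. -/
theorem sp_local {u : ℂ → E} {R C A : ℝ} (hR : 0 < R) (hu : ContDiffOn ℝ 1 u (ball 0 R \ {0}))
    (hb : ∀ z ∈ ball (0:ℂ) R \ {0}, ‖u z‖ ≤ A)
    (hd : ∀ z ∈ ball (0:ℂ) R \ {0}, ‖dbarV u z‖ ≤ C * ‖u z‖) :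
    (∃ r > 0, ∀ z ∈ ball (0:ℂ) r \ {0}, u z = 0) ∨ ∃ m : ℕ, ∃ a : E, a ≠ 0 ∧ ∃ K r : ℝ, 0 ≤ K ∧
      0 < r ∧ ∀ z ∈ ball (0:ℂ) r \ {0}, ‖(z ^ m)⁻¹ • u z - a‖ ≤ K * ‖z‖ ^ (1/2 : ℝ) := by
  -- choose the scale
  set C' : ℝ := |C| + 1 with hC'
  have hC'0 : 0 < C' := by positivity
  set ρ : ℝ := min R (1 / (4 * C' * (c1 + 1))) with hρ
  have hc1 := c1_nonneg
  have hρ0 : 0 < ρ := lt_min hR (by positivity)
  have hρR : ρ ≤ R := min_le_left _ _
  have hmap : ∀ z ∈ pd, (ρ : ℂ) * z ∈ ball (0:ℂ) R \ {0} := by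
    intro z hz
    refine ⟨?_, ?_⟩
    · rw [mem_ball_zero_iff, norm_mul, Complex.norm_real, Real.norm_eq_abs, abs_of_pos hρ0]
      have := norm_lt_one hz
      nlinarith
    · have : (ρ : ℂ) ≠ 0 := by exact_mod_cast hρ0.ne'
      simpa using mul_ne_zero this hz.2
  set v : ℂ → E := fun z => u ((ρ : ℂ) * z) with hv
  have hopen : IsOpen (ball (0:ℂ) R \ {0}) := isOpen_ball.sdiff isClosed_singleton
  have hdb : ∀ z ∈ pd, dbarV v z = (ρ : ℂ) • dbarV u ((ρ : ℂ) * z) := by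
    intro z hz
    have h1 : HasFDerivAt u (fderiv ℝ u ((ρ:ℂ) * z)) ((ρ:ℂ) * z) :=
      ((hu.differentiableOn (by simp)).differentiableAt (hopen.mem_nhds (hmap z hz))).hasFDerivAt
    have h2 : HasFDerivAt (fun z : ℂ => (ρ:ℂ) * z) (ρ • ContinuousLinearMap.id ℝ ℂ) z := by
      have h20 : (fun z : ℂ => (ρ:ℂ) * z) = fun z => (ρ • ContinuousLinearMap.id ℝ ℂ) z := by
        ext z; simp
      rw [h20]
      exact (ρ • ContinuousLinearMap.id ℝ ℂ).hasFDerivAt
    have h3 := h1.comp z h2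
    unfold dbarV
    have h4 : fderiv ℝ v z = (fderiv ℝ u ((ρ:ℂ) * z)).comp (ρ • ContinuousLinearMap.id ℝ ℂ) :=
      h3.fderiv
    have h5 : ∀ w : ℂ, fderiv ℝ v z w = (ρ:ℂ) • fderiv ℝ u ((ρ:ℂ) * z) w := by
      intro w
      rw [h4]
      simp
    rw [h5, h5]
    simp only [smul_add, smul_smul]
    ring_nf
  have hcarl : Carl (ρ * C') (max A 0) v := by
    refine ⟨by positivity, le_max_right _ _, ?_, fun z hz => (hb _ (hmap z hz)).trans (le_max_left _ _),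
      fun z hz => ?_⟩
    · refine hu.comp ?_ fun z hz => hmap z hz
      exact (contDiff_const.mul contDiff_id).contDiffOn
    · rw [hdb z hz, norm_smul, Complex.norm_real, Real.norm_eq_abs, abs_of_pos hρ0, mul_assoc]
      refine mul_le_mul_of_nonneg_left ?_ hρ0.le
      refine (hd _ (hmap z hz)).trans ?_
      refine mul_le_mul_of_nonneg_right ?_ (norm_nonneg _)
      rw [hC']; linarith [le_abs_self C]
  have hsmall : ρ * C' * c1 ≤ 1/4 := by
    have h1 : ρ ≤ 1 / (4 * C' * (c1 + 1)) := min_le_right _ _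
    have h2 : ρ * C' * c1 ≤ 1 / (4 * C' * (c1 + 1)) * C' * c1 := by gcongr
    refine h2.trans ?_
    have h3 : 1 / (4 * C' * (c1 + 1)) * C' * c1 = c1 / (c1 + 1) / 4 := by field_simp
    rw [h3]
    have h4 : c1 / (c1 + 1) ≤ 1 := by rw [div_le_one (by positivity)]; linarith
    linarith
  have hback : ∀ z ∈ ball (0:ℂ) ρ \ {0}, z / (ρ:ℂ) ∈ pd ∧ (ρ:ℂ) * (z / (ρ:ℂ)) = z := by
    intro z hz
    have hρc : (ρ:ℂ) ≠ 0 := by exact_mod_cast hρ0.ne'
    refine ⟨⟨?_, ?_⟩, by field_simp⟩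
    · rw [mem_ball_zero_iff, norm_div, Complex.norm_real, Real.norm_eq_abs, abs_of_pos hρ0,
        div_lt_one hρ0]
      exact mem_ball_zero_iff.1 hz.1
    · simpa using div_ne_zero hz.2 hρc
  rcases hcarl.main hsmall with h0 | ⟨m, a, ha, K, hK, h1⟩
  · left
    refine ⟨ρ, hρ0, fun z hz => ?_⟩
    obtain ⟨h2, h3⟩ := hback z hz
    have := h0 _ h2
    simpa only [hv, h3] using this
  · right
    have hρc : (ρ:ℂ) ≠ 0 := by exact_mod_cast hρ0.ne'
    refine ⟨m, ((ρ:ℂ) ^ m)⁻¹ • a, smul_ne_zero (inv_ne_zero (pow_ne_zero m hρc)) ha,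
      (ρ ^ m)⁻¹ * (K * (ρ ^ (1/2:ℝ))⁻¹), ρ, by positivity, hρ0, fun z hz => ?_⟩
    obtain ⟨h2, h3⟩ := hback z hz
    have h4 := h1 _ h2
    simp only [hv, h3] at h4
    have e1 : (z ^ m)⁻¹ • u z - ((ρ:ℂ) ^ m)⁻¹ • a =
        ((ρ:ℂ) ^ m)⁻¹ • (((z / (ρ:ℂ)) ^ m)⁻¹ • u z - a) := by
      rw [smul_sub, smul_smul]
      congr 2
      rw [div_pow]
      field_simp
    rw [e1, norm_smul, norm_inv, norm_pow, Complex.norm_real, Real.norm_eq_abs, abs_of_pos hρ0,
      mul_assoc]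
    refine mul_le_mul_of_nonneg_left ?_ (by positivity)
    refine h4.trans (le_of_eq ?_)
    rw [norm_div, Complex.norm_real, Real.norm_eq_abs, abs_of_pos hρ0,
      Real.div_rpow (norm_nonneg _) hρ0.le]
    rw [div_eq_mul_inv]
    ring

end Vale.Agent.P247.H324
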