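import Vale.Agent.P247.H324.Frame

/-! The difference of two sheets of almost complex curves, measured in a fixed
direction, satisfies the local alternative of the similarity principle. -/

open Set Metric Filter Topology Asymptotics
open scoped ContDiff

noncomputable section

namespace Vale.Agent.P247.H324

open Vale.Agent.P272.CT

/-- the target `ℂ²` -/
abbrev C2 := ℂ × ℂ

/-- a field of endomorphisms of `ℂ²` -/
abbrev AC := C2 → C2 →L[ℝ] C2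

abbrev fstL : C2 →L[ℝ] ℂ := ContinuousLinearMap.fst ℝ ℂ ℂ
abbrev sndL : C2 →L[ℝ] ℂ := ContinuousLinearMap.snd ℝ ℂ ℂ
abbrev inrL : ℂ →L[ℝ] C2 := ContinuousLinearMap.inr ℝ ℂ ℂ

/-- the off diagonal part of `J` -/
def pJ (A : C2 →L[ℝ] C2) : ℂ →L[ℝ] ℂ := fstL ∘L A ∘L inrL

/-- the diagonal part of `J` -/
def qJ (A : C2 →L[ℝ] C2) : ℂ →L[ℝ] ℂ := sndL ∘L A ∘L inrL

/-- complex structure induced on the vertical line by the quotient by the graph of `s` -/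
def vJ (A : C2 →L[ℝ] C2) (s : ℂ →L[ℝ] ℂ) : ℂ →L[ℝ] ℂ := qJ A - s ∘L pJ A

theorem norm_fstL : ‖fstL‖ ≤ 1 := ContinuousLinearMap.opNorm_le_bound _ zero_le_one (fun v => by
  simpa using norm_fst_le v)
theorem norm_sndL : ‖sndL‖ ≤ 1 := ContinuousLinearMap.opNorm_le_bound _ zero_le_one (fun v => by
  simpa using norm_snd_le v)
theorem norm_inrL : ‖inrL‖ ≤ 1 := ContinuousLinearMap.opNorm_le_bound _ zero_le_one (fun v => by
  simp [Prod.norm_def])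

theorem norm_pJ (A : C2 →L[ℝ] C2) : ‖pJ A‖ ≤ ‖A‖ := by
  refine ContinuousLinearMap.opNorm_le_bound _ (norm_nonneg _) (fun v => ?_)
  have h1 := norm_fst_le (A (inrL v))
  have h2 := A.le_opNorm (inrL v)
  have h3 : ‖inrL v‖ = ‖v‖ := by simp [Prod.norm_def]
  rw [h3] at h2
  exact h1.trans h2

theorem norm_qJ (A : C2 →L[ℝ] C2) : ‖qJ A‖ ≤ ‖A‖ := by
  refine ContinuousLinearMap.opNorm_le_bound _ (norm_nonneg _) (fun v => ?_)
  have h1 := norm_snd_le (A (inrL v))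
  have h2 := A.le_opNorm (inrL v)
  have h3 : ‖inrL v‖ = ‖v‖ := by simp [Prod.norm_def]
  rw [h3] at h2
  exact h1.trans h2

/-- `pJ` as a continuous linear map -/
def pJL : (C2 →L[ℝ] C2) →L[ℝ] (ℂ →L[ℝ] ℂ) :=
  (ContinuousLinearMap.compL ℝ ℂ C2 ℂ fstL) ∘L ((ContinuousLinearMap.compL ℝ ℂ C2 C2).flip inrL)

/-- `qJ` as a continuous linear map -/
def qJL : (C2 →L[ℝ] C2) →L[ℝ] (ℂ →L[ℝ] ℂ) :=
  (ContinuousLinearMap.compL ℝ ℂ C2 ℂ sndL) ∘L ((ContinuousLinearMap.compL ℝ ℂ C2 C2).flip inrL)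

@[simp] theorem pJL_apply (A : C2 →L[ℝ] C2) : pJL A = pJ A := rfl
@[simp] theorem qJL_apply (A : C2 →L[ℝ] C2) : qJL A = qJ A := rfl

theorem pJ_iL : pJ (iL C2) = 0 := by
  ext <;> simp [pJ]

theorem qJ_iL : qJ (iL C2) = iL ℂ := by
  ext <;> simp [qJ]

/-- projection along the graph of `s` onto the vertical line -/
theorem vJ_proj {A : C2 →L[ℝ] C2} {s : ℂ →L[ℝ] ℂ}
    (hinv : ∀ x : ℂ, (A (x, s x)).2 = s (A (x, s x)).1) (v : C2) :
    (A v).2 - s (A v).1 = vJ A s (v.2 - s v.1) := by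
  have h1 : v = (v.1, s v.1) + (0, v.2 - s v.1) := by
    ext <;> simp
  have h2 : A v = A (v.1, s v.1) + A (0, v.2 - s v.1) := by
    conv_lhs => rw [h1]
    rw [map_add]
  have h3 : vJ A s (v.2 - s v.1) = (A (0, v.2 - s v.1)).2 - s (A (0, v.2 - s v.1)).1 := by
    simp [vJ, pJ, qJ]
  rw [h3, h2]
  simp only [Prod.snd_add, Prod.fst_add, map_add]
  rw [hinv]
  ring

theorem vJ_sq {A : C2 →L[ℝ] C2} {s : ℂ →L[ℝ] ℂ} (hsq : ∀ v, A (A v) = -v)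
    (hinv : ∀ x : ℂ, (A (x, s x)).2 = s (A (x, s x)).1) (w : ℂ) :
    vJ A s (vJ A s w) = -w := by
  have h0 : vJ A s w = (A (0, w)).2 - s (A (0, w)).1 := by simp [vJ, pJ, qJ]
  have h1 := vJ_proj hinv (A (0, w))
  rw [← h0, hsq] at h1
  rw [← h1]
  simp

/-- The basic identity for the difference of two sheets. -/
theorem sheet_id {J : AC} {F H : ℂ → C2} {s : ℂ →L[ℝ] ℂ} {z : ℂ}
    (hF : DifferentiableAt ℝ F z) (hH : DifferentiableAt ℝ H z)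
    (hJF : py F z = J (F z) (px F z)) (h1 : ∀ᶠ w in 𝓝 z, (H w).1 = (F w).1)
    (hT : ∀ w : ℂ, (fderiv ℝ H z w).2 = s (fderiv ℝ H z w).1)
    (hinv : ∀ x : ℂ, (J (H z) (x, s x)).2 = s (J (H z) (x, s x)).1) :
    py (fun w => (H w).2 - (F w).2) z - vJ (J (H z)) s (px (fun w => (H w).2 - (F w).2) z) =
      ((J (H z) - J (F z)) (px F z)).2 - s ((J (H z) - J (F z)) (px F z)).1 := by
  have hd : ∀ w : ℂ, fderiv ℝ (fun w => (H w).2 - (F w).2) z w =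
      (fderiv ℝ H z w).2 - (fderiv ℝ F z w).2 := by
    intro w
    have a1 : HasFDerivAt (fun w => (H w).2 - (F w).2) _ z :=
      (hH.hasFDerivAt.snd).sub hF.hasFDerivAt.snd
    rw [a1.fderiv]; rfl
  have hd1 : ∀ w : ℂ, (fderiv ℝ H z w).1 = (fderiv ℝ F z w).1 := by
    intro w
    have a1 : HasFDerivAt (fun w => (H w).1) _ z := hH.hasFDerivAt.fst
    have a2 : HasFDerivAt (fun w => (F w).1) _ z := hF.hasFDerivAt.fst
    have a3 := (a2.congr_of_eventuallyEq h1).unique a1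
    have := congrArg (fun L : ℂ →L[ℝ] ℂ => L w) a3
    simpa using this.symm
  have hd2 : ∀ w : ℂ, fderiv ℝ (fun w => (H w).2 - (F w).2) z w =
      -((fderiv ℝ F z w).2 - s (fderiv ℝ F z w).1) := by
    intro w
    rw [hd, hT, hd1]; ring
  simp only [px, py] at *
  rw [hd2, hd2, hJF, map_neg, ← vJ_proj hinv]
  simp only [sub_apply, Prod.fst_sub, Prod.snd_sub, map_sub]
  ring

theorem norm_graph_le (s : ℂ →L[ℝ] ℂ) (v : C2) : ‖v.2 - s v.1‖ ≤ (1 + ‖s‖) * ‖v‖ := by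
  have h1 := norm_sub_le v.2 (s v.1)
  have h2 := s.le_opNorm v.1
  have h3 := norm_fst_le v
  have h4 := norm_snd_le v
  have h5 : ‖s‖ * ‖v.1‖ ≤ ‖s‖ * ‖v‖ := by gcongr
  linarith

theorem sheet_sp {J : AC} (hJ : ContDiff ℝ 1 J) (hsq : ∀ x v, J x (J x v) = -v)
    {F H : ℂ → C2} {s : ℂ → ℂ →L[ℝ] ℂ} {R M : ℝ} {x0 : C2} (hR : 0 < R) (hx0 : J x0 = iL C2)
    (hF : ContDiffOn ℝ 1 F (ball 0 R \ {0})) (hH : ContDiffOn ℝ 1 H (ball 0 R \ {0}))
    (hs : ContDiffOn ℝ 1 s (ball 0 R \ {0}))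
    (hFl : Tendsto F (𝓝[≠] 0) (𝓝 x0)) (hHl : Tendsto H (𝓝[≠] 0) (𝓝 x0))
    (hJF : ∀ z ∈ ball (0:ℂ) R \ {0}, py F z = J (F z) (px F z))
    (h1 : ∀ z ∈ ball (0:ℂ) R \ {0}, (H z).1 = (F z).1)
    (hT : ∀ z ∈ ball (0:ℂ) R \ {0}, ∀ w : ℂ, (fderiv ℝ H z w).2 = s z (fderiv ℝ H z w).1)
    (hinv : ∀ z ∈ ball (0:ℂ) R \ {0}, ∀ x : ℂ,
      (J (H z) (x, s z x)).2 = s z (J (H z) (x, s z x)).1)
    (bF : ∀ z ∈ ball (0:ℂ) R \ {0}, ‖px F z‖ ≤ M)
    (bH : ∀ z ∈ ball (0:ℂ) R \ {0}, ‖fderiv ℝ H z‖ ≤ M)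
    (bs : ∀ z ∈ ball (0:ℂ) R \ {0}, ‖s z‖ ≤ M)
    (bs' : ∀ z ∈ ball (0:ℂ) R \ {0}, ‖fderiv ℝ s z‖ * ‖pJ (J (H z))‖ ≤ M) :
    (∃ r > 0, ∀ z ∈ ball (0:ℂ) r \ {0}, (H z).2 = (F z).2) ∨
    ∃ (m : ℕ) (a : ℂ), a ≠ 0 ∧
      Tendsto (fun z : ℂ => (z^m)⁻¹ * ((H z).2 - (F z).2)) (𝓝[≠] 0) (𝓝 a) := by
  -- local bounds for `J`
  obtain ⟨δ, hδ, K, hK, hJb⟩ : ∃ δ > 0, ∃ K : ℝ, 0 ≤ K ∧ ∀ x ∈ ball x0 δ, ‖fderiv ℝ J x‖ ≤ K := by
    have c1 : ContinuousAt (fun x => ‖fderiv ℝ J x‖) x0 :=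
      (hJ.continuous_fderiv (by simp)).norm.continuousAt
    have c2 := c1.eventually (gt_mem_nhds (lt_add_one _))
    obtain ⟨δ, hδ, h⟩ := Metric.eventually_nhds_iff_ball.1 c2
    refine ⟨δ, hδ, ‖fderiv ℝ J x0‖ + 1, by positivity, fun x hx => (h x hx).le⟩
  have hJlip : ∀ x ∈ ball x0 δ, ∀ y ∈ ball x0 δ, ‖J x - J y‖ ≤ K * ‖x - y‖ := by
    intro x hx y hy
    exact (convex_ball x0 δ).norm_image_sub_le_of_norm_fderiv_le
      (fun w _ => (hJ.differentiable (by simp)) w) hJb hy hx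
  obtain ⟨r0, hr0, hr0'⟩ : ∃ r0 > 0, ∀ z ∈ ball (0:ℂ) r0 \ {0},
      F z ∈ ball x0 δ ∧ H z ∈ ball x0 δ := by
    have e1 := (hFl.eventually (ball_mem_nhds x0 hδ)).and (hHl.eventually (ball_mem_nhds x0 hδ))
    rw [eventually_nhdsWithin_iff, Metric.eventually_nhds_iff_ball] at e1
    obtain ⟨r0, hr0, h⟩ := e1
    exact ⟨r0, hr0, fun z hz => h z hz.1 hz.2⟩
  set r := min R r0 with hr
  have hrp : 0 < r := lt_min hR hr0
  have s1 : ball (0:ℂ) r \ {0} ⊆ ball (0:ℂ) R \ {0} :=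
    sdiff_subset_sdiff_left (ball_subset_ball (min_le_left _ _))
  have s2 : ball (0:ℂ) r \ {0} ⊆ ball (0:ℂ) r0 \ {0} :=
    sdiff_subset_sdiff_left (ball_subset_ball (min_le_right _ _))
  have hop : IsOpen (ball (0:ℂ) r \ {0}) := isOpen_ball.sdiff isClosed_singleton
  set h : ℂ → ℂ := fun w => (H w).2 - (F w).2 with hh
  set 𝒥 : ℂ → ℂ →L[ℝ] ℂ := fun z => vJ (J (H z)) (s z) with h𝒥
  have hM : 0 ≤ M := by
    have hz : ((r/2 : ℝ) : ℂ) ∈ ball (0:ℂ) r \ {0} := by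
      constructor
      · rw [mem_ball_zero_iff, Complex.norm_real, Real.norm_of_nonneg (by positivity)]
        linarith
      · simp only [mem_singleton_iff, Complex.ofReal_eq_zero]
        positivity
    exact (norm_nonneg _).trans (bF _ (s1 hz))
  have dF : ∀ z ∈ ball (0:ℂ) r \ {0}, DifferentiableAt ℝ F z := fun z hz =>
    ((hF.mono s1).differentiableOn (by simp)).differentiableAt (hop.mem_nhds hz)
  have dH : ∀ z ∈ ball (0:ℂ) r \ {0}, DifferentiableAt ℝ H z := fun z hz =>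
    ((hH.mono s1).differentiableOn (by simp)).differentiableAt (hop.mem_nhds hz)
  have ds : ∀ z ∈ ball (0:ℂ) r \ {0}, DifferentiableAt ℝ s z := fun z hz =>
    ((hs.mono s1).differentiableOn (by simp)).differentiableAt (hop.mem_nhds hz)
  -- norm of `h`
  have hnorm : ∀ z ∈ ball (0:ℂ) r \ {0}, ‖H z - F z‖ = ‖h z‖ := by
    intro z hz
    have : H z - F z = (0, h z) := by
      ext
      · simp [h1 z (s1 hz)]
      · simp [hh]
    rw [this]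
    simp [Prod.norm_def]
  have cJH : ContDiffOn ℝ 1 (fun z => J (H z)) (ball (0:ℂ) r \ {0}) :=
    hJ.comp_contDiffOn (hH.mono s1)
  have c𝒥 : ContDiffOn ℝ 1 𝒥 (ball (0:ℂ) r \ {0}) := by
    have a1 : ContDiffOn ℝ 1 (fun z => qJL (J (H z))) (ball (0:ℂ) r \ {0}) :=
      qJL.contDiff.comp_contDiffOn cJH
    have a2 : ContDiffOn ℝ 1 (fun z => pJL (J (H z))) (ball (0:ℂ) r \ {0}) :=
      pJL.contDiff.comp_contDiffOn cJH
    exact a1.sub ((hs.mono s1).clm_comp a2)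
  have ch : ContDiffOn ℝ 1 h (ball (0:ℂ) r \ {0}) :=
    (contDiff_snd.comp_contDiffOn (hH.mono s1)).sub (contDiff_snd.comp_contDiffOn (hF.mono s1))
  -- limit of `𝒥`
  have hJH : Tendsto (fun z => J (H z)) (𝓝[≠] 0) (𝓝 (iL C2)) := by
    have := (hJ.continuous.tendsto x0).comp hHl
    rwa [hx0] at this
  have lp : Tendsto (fun z => ‖pJ (J (H z))‖) (𝓝[≠] 0) (𝓝 0) := by
    have a1 : Tendsto (fun z => pJL (J (H z))) (𝓝[≠] 0) (𝓝 (pJL (iL C2))) :=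
      (pJL.continuous.tendsto _).comp hJH
    rw [pJL_apply, pJ_iL] at a1
    simpa using a1.norm
  have lim𝒥 : Tendsto 𝒥 (𝓝[≠] 0) (𝓝 (iL ℂ)) := by
    have a1 : Tendsto (fun z => qJL (J (H z))) (𝓝[≠] 0) (𝓝 (qJL (iL C2))) :=
      (qJL.continuous.tendsto _).comp hJH
    rw [qJL_apply, qJ_iL] at a1
    have a2 : Tendsto (fun z => s z ∘L pJ (J (H z))) (𝓝[≠] 0) (𝓝 0) := by
      rw [tendsto_zero_iff_norm_tendsto_zero]
      have a3 : Tendsto (fun z => M * ‖pJ (J (H z))‖) (𝓝[≠] 0) (𝓝 (M * 0)) := lp.const_mul M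
      rw [mul_zero] at a3
      refine squeeze_zero' (Eventually.of_forall fun _ => norm_nonneg _) ?_ a3
      rw [eventually_nhdsWithin_iff]
      filter_upwards [ball_mem_nhds (0:ℂ) hrp] with z hz hz0
      refine (ContinuousLinearMap.opNorm_comp_le _ _).trans ?_
      gcongr
      exact bs z (s1 ⟨hz, hz0⟩)
    have a4 := a1.sub a2
    rw [sub_zero] at a4
    exact a4
  -- bound for the derivative of `𝒥`
  have bJH : ∀ z ∈ ball (0:ℂ) r \ {0}, ‖fderiv ℝ (fun z => J (H z)) z‖ ≤ K * M := by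
    intro z hz
    have a1 : HasFDerivAt (fun z => J (H z)) _ z :=
      ((hJ.differentiable (by simp)) (H z)).hasFDerivAt.comp z (dH z hz).hasFDerivAt
    rw [a1.fderiv]
    refine (ContinuousLinearMap.opNorm_comp_le _ _).trans ?_
    gcongr
    · exact hJb _ (hr0' z (s2 hz)).2
    · exact bH z (s1 hz)
  have b𝒥 : ∀ z ∈ ball (0:ℂ) r \ {0}, ‖fderiv ℝ 𝒥 z‖ ≤ K * M + (M * (K * M) + M) := by
    intro z hz
    have dJH : DifferentiableAt ℝ (fun z => J (H z)) z :=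
      ((hJ.differentiable (by simp)) (H z)).comp z (dH z hz)
    have a1 : HasFDerivAt (fun z => qJL (J (H z))) _ z := qJL.hasFDerivAt.comp z dJH.hasFDerivAt
    have a2 : HasFDerivAt (fun z => pJL (J (H z))) _ z := pJL.hasFDerivAt.comp z dJH.hasFDerivAt
    have a3 : HasFDerivAt (fun z => s z ∘L pJL (J (H z))) _ z :=
      (ds z hz).hasFDerivAt.clm_comp a2
    have a4 : HasFDerivAt 𝒥 _ z := a1.sub a3
    refine ContinuousLinearMap.opNorm_le_bound _ (by positivity) (fun w => ?_)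
    rw [a4.fderiv]
    have e1 : ‖(fderiv ℝ (fun z => J (H z)) z) w‖ ≤ (K * M) * ‖w‖ :=
      ((fderiv ℝ (fun z => J (H z)) z).le_opNorm w).trans (by gcongr; exact bJH z hz)
    have e2 : ‖qJ ((fderiv ℝ (fun z => J (H z)) z) w)‖ ≤ (K * M) * ‖w‖ := (norm_qJ _).trans e1
    have e3 : ‖s z ∘L pJ ((fderiv ℝ (fun z => J (H z)) z) w)‖ ≤ M * ((K * M) * ‖w‖) := by
      refine (ContinuousLinearMap.opNorm_comp_le _ _).trans ?_
      gcongr
      · exact bs z (s1 hz)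
      · exact (norm_pJ _).trans e1
    have e4 : ‖(fderiv ℝ s z w) ∘L pJ (J (H z))‖ ≤ M * ‖w‖ := by
      refine (ContinuousLinearMap.opNorm_comp_le _ _).trans ?_
      calc ‖fderiv ℝ s z w‖ * ‖pJ (J (H z))‖ ≤ (‖fderiv ℝ s z‖ * ‖w‖) * ‖pJ (J (H z))‖ := by
            gcongr
            exact (fderiv ℝ s z).le_opNorm w
        _ = (‖fderiv ℝ s z‖ * ‖pJ (J (H z))‖) * ‖w‖ := by ring
        _ ≤ M * ‖w‖ := by
            gcongr
            exact bs' z (s1 hz)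
    have e5 : ∀ X Y Z : ℂ →L[ℝ] ℂ, ‖X - (Y + Z)‖ ≤ ‖X‖ + (‖Y‖ + ‖Z‖) := fun X Y Z =>
      (norm_sub_le _ _).trans (by gcongr; exact norm_add_le _ _)
    refine (e5 _ _ _).trans ?_
    calc _ ≤ (K * M) * ‖w‖ + (M * ((K * M) * ‖w‖) + M * ‖w‖) :=
          add_le_add e2 (add_le_add e3 e4)
      _ = _ := by ring
  -- the equation
  have heq : ∀ z ∈ ball (0:ℂ) r \ {0}, ‖py h z - 𝒥 z (px h z)‖ ≤ ((1 + M) * (K * M)) * ‖h z‖ := by
    intro z hz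
    have e0 : ∀ᶠ w in 𝓝 z, (H w).1 = (F w).1 := by
      filter_upwards [hop.mem_nhds hz] with w hw
      exact h1 w (s1 hw)
    rw [hh, h𝒥, sheet_id (dF z hz) (dH z hz) (hJF z (s1 hz)) e0 (hT z (s1 hz)) (hinv z (s1 hz))]
    refine (norm_graph_le _ _).trans ?_
    have e1 : ‖(J (H z) - J (F z)) (px F z)‖ ≤ (K * ‖H z - F z‖) * M := by
      refine (ContinuousLinearMap.le_opNorm _ _).trans ?_
      gcongr
      · exact hJlip _ (hr0' z (s2 hz)).2 _ (hr0' z (s2 hz)).1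
      · exact bF z (s1 hz)
    rw [hnorm z hz] at e1
    calc (1 + ‖s z‖) * ‖(J (H z) - J (F z)) (px F z)‖ ≤ (1 + M) * ((K * ‖h z‖) * M) := by
          gcongr
          exact bs z (s1 hz)
      _ = _ := by ring
  -- bound for `h`
  have bh : ∀ z ∈ ball (0:ℂ) r \ {0}, ‖h z‖ ≤ 2 * δ := by
    intro z hz
    rw [← hnorm z hz]
    have a1 := (hr0' z (s2 hz)).1
    have a2 := (hr0' z (s2 hz)).2
    rw [mem_ball, dist_eq_norm] at a1 a2
    calc ‖H z - F z‖ = ‖(H z - x0) - (F z - x0)‖ := by congr 1; abel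
      _ ≤ ‖H z - x0‖ + ‖F z - x0‖ := norm_sub_le _ _
      _ ≤ 2 * δ := by linarith
  have := sp_frame hrp ch c𝒥 (fun z hz v => vJ_sq (hsq _) (hinv z (s1 hz)) v) lim𝒥 b𝒥 bh heq
  rcases this with ⟨r', hr', h'⟩ | ⟨m, a, ha, hl⟩
  · exact Or.inl ⟨r', hr', fun z hz => sub_eq_zero.1 (h' z hz)⟩
  · exact Or.inr ⟨m, a, ha, by simpa [smul_eq_mul] using hl⟩

end Vale.Agent.P247.H324
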